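import Vale.Agent.P011.H518.Real.Out
import Vale.Agent.P011.H439.State

/-!
# The extension over the real places in terms of filters
-/

open Filter Topology

set_option linter.unusedSectionVars false

noncomputable section

namespace Vale.Agent.P011.H518.Real

/-- A character in the additive notation gives one in the multiplicative notation. -/
theorem chr_mul {K D E : Type*} [Field K] [StarRing K] [DivisionRing D] [StarRing D]
    [Algebra K D] [TopologicalSpace D] [AddCommGroup E] {W : Set D} {ch : D → E}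
    (hc : H439.Chr K W ch) :
    H436.OddN.Chr W (fun x => (Multiplicative.ofAdd (ch x) : Multiplicative E)) := by
  refine ⟨hc.unit, fun u hu => ?_, ?_, hc.mul, hc.inv, fun u hu v hv => ?_⟩
  · have h := hc.unit u hu
    have h0 : u ≠ 0 := by
      rintro rfl
      rw [zero_mul] at h
      exact zero_ne_one h
    rw [eq_inv_of_mul_eq_one_right h, inv_mul_cancel₀ h0]
  · have h := (hc.scal 1 (by rw [star_one, mul_one])).1
    rwa [map_one] at h
  · rw [hc.map u hu v hv, ofAdd_add]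

/-- The quotient is unitary. -/
theorem quot_unitary {D : Type*} [DivisionRing D] [StarRing D] {x : D} (hx : x ≠ 0)
    (h : Commute x (star x)) : (star x * x⁻¹) * star (star x * x⁻¹) = 1 := by
  have hs : star x ≠ 0 := by rwa [star_ne_zero]
  have h1 : Commute x⁻¹ (star x)⁻¹ := (h.inv_left₀).inv_right₀
  rw [star_mul, star_star, star_inv₀]
  calc star x * x⁻¹ * ((star x)⁻¹ * x) = star x * (x⁻¹ * (star x)⁻¹) * x := by
        simp only [mul_assoc]
    _ = star x * ((star x)⁻¹ * x⁻¹) * x := by rw [h1.eq]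
    _ = (star x * (star x)⁻¹) * (x⁻¹ * x) := by simp only [mul_assoc]
    _ = 1 := by rw [mul_inv_cancel₀ hs, inv_mul_cancel₀ hx, mul_one]

section main

variable {K D E T : Type*} [Field K] [StarRing K] [DivisionRing D] [StarRing D] [Algebra K D]
  [AddCommGroup E] [Fintype T] {n : ℕ} [NeZero n] {J : T → (D →+* Matrix (Fin n) (Fin n) ℂ)}
  {τ : T → (K →+* ℂ)} {O : Subring K} {F : Set D} {Hf : ℝ → Set D}
  [TopologicalSpace D] [IsTopologicalDivisionRing D] [ContinuousStar D]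

/-- **The extension over the real places.**  `G` is the filter of the neighbourhoods of one at the
finite places and at the real places, the topology of `D` belongs to the finite places. -/
theorem real_ext (hcon : ∀ ε : ℝ, 0 < ε → ε ≤ 1 → Con τ J O (Hf ε) F)
    (htwo : ∀ ε : ℝ, 0 < ε → ε ≤ 1 → ∃ ε₂ : ℝ, 0 < ε₂ ∧ ε₂ ≤ ε ∧ Two τ (Hf ε₂) (Hf ε))
    (hmono : ∀ ε ε' : ℝ, ε ≤ ε' → Hf ε ⊆ Hf ε')
    (hnb : ∀ U : Set D, U ∈ 𝓝 (1 : D) ↔ ∃ ε : ℝ, 0 < ε ∧ Hf ε ⊆ U) {G : Filter D}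
    (hG : ∀ U : Set D, U ∈ G ↔ ∃ ε : ℝ, 0 < ε ∧ ∃ δ : ℝ, 0 < δ ∧ ∀ x ∈ Hf ε, Pn J δ x → x ∈ U)
    (Fc : ∀ x ∈ F, ∀ y ∈ F, Commute x y) (Fs : ∀ x ∈ F, star x ∈ F) {W : Set D} {ch : D → E}
    (hc : H439.Chr K W ch) {P : D → E} (h1 : ∀ᶠ p in G ×ˢ G, P (p.1 * p.2) = P p.1 + P p.2)
    (h2 : ∀ᶠ g in G, Commute g (star g) → P g = ch (star g * g⁻¹)) :
    ∃ V : D → E, (∀ᶠ p in 𝓝 (1 : D) ×ˢ 𝓝 (1 : D), V (p.1 * p.2) = V p.1 + V p.2) ∧
      (∀ᶠ g in 𝓝 (1 : D), Commute g (star g) → V g = ch (star g * g⁻¹)) ∧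
      ∀ᶠ g in G, V g = P g := by
  obtain ⟨U1, hU1, hU2⟩ := mem_prod_same_iff.mp h1
  obtain ⟨ε₁, he1, δ₁, hd1, h3⟩ := (hG _).mp hU1
  obtain ⟨ε₂, he2, δ₂, hd2, h4⟩ := (hG _).mp h2
  have hq : Tendsto (fun x : D => star x * x⁻¹) (𝓝 1) (𝓝 1) := by
    have ha : Tendsto (fun x : D => star x) (𝓝 1) (𝓝 1) := by
      have := (continuous_star (R := D)).tendsto 1
      rwa [star_one] at this
    have hb : Tendsto (fun x : D => x⁻¹) (𝓝 1) (𝓝 1) := by
      have := (tendsto_inv₀ (G₀ := D) one_ne_zero)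
      rwa [inv_one] at this
    have := ha.mul hb
    rwa [mul_one] at this
  obtain ⟨ε₃, he3, h5⟩ := (hnb _).mp (hq.eventually hc.near)
  obtain ⟨ε, he, hea, heb, hec, hed⟩ : ∃ ε : ℝ, 0 < ε ∧ ε ≤ 1 ∧ ε ≤ ε₁ ∧ ε ≤ ε₂ ∧ ε ≤ ε₃ :=
    ⟨min 1 (min ε₁ (min ε₂ ε₃)), lt_min one_pos (lt_min he1 (lt_min he2 he3)), min_le_left _ _,
      (min_le_right _ _).trans (min_le_left _ _),
      (min_le_right _ _).trans ((min_le_right _ _).trans (min_le_left _ _)),
      (min_le_right _ _).trans ((min_le_right _ _).trans (min_le_right _ _))⟩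
  obtain ⟨ε', he', hee', htw⟩ := htwo ε he hea
  have con := hcon ε' he' (hee'.trans hea)
  have hne : ∀ x ∈ Hf ε', x ≠ 0 := fun x hx => con.grp.ne hx
  obtain ⟨V, δ, hδ, v1, v2, v3⟩ := con.exists_star htw (W := W)
    (c := fun x => (Multiplicative.ofAdd (ch x) : Multiplicative E))
    (P := fun x => (Multiplicative.ofAdd (P x) : Multiplicative E)) (chr_mul hc)
    (fun x hx hxs => h5 (hmono _ _ (hee'.trans hed) hx) (quot_unitary (hne x hx) hxs)) Fc Fs
    (lt_min hd1 hd2)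
    (fun x hx y hy hxn hyn => by
      have h := hU2 (Set.mk_mem_prod
        (h3 x (hmono _ _ heb hx) fun t a b => (hxn t a b).trans_le (min_le_left _ _))
        (h3 y (hmono _ _ heb hy) fun t a b => (hyn t a b).trans_le (min_le_left _ _)))
      have h' : P (x * y) = P x + P y := h
      rw [h', ofAdd_add])
    (fun x hx hxn hxs => congrArg Multiplicative.ofAdd
      (h4 x (hmono _ _ (hee'.trans hec) hx) (fun t a b => (hxn t a b).trans_le (min_le_right _ _))
        hxs))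
  refine ⟨fun x => Multiplicative.toAdd (V x), ?_, ?_, ?_⟩
  · refine mem_prod_same_iff.mpr ⟨Hf ε', (hnb _).mpr ⟨ε', he', subset_rfl⟩, fun p hp => ?_⟩
    change (V (p.1 * p.2)).toAdd = (V p.1).toAdd + (V p.2).toAdd
    rw [v1 _ hp.1 _ hp.2, toAdd_mul]
  · refine (hnb _).mpr ⟨ε', he', fun g hg hgs => ?_⟩
    change (V g).toAdd = _
    rw [v3 g hg hgs, toAdd_ofAdd]
  · refine (hG _).mpr ⟨ε', he', δ, hδ, fun x hx hxn => ?_⟩
    change (V x).toAdd = P x
    rw [v2 x hx hxn, toAdd_ofAdd]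

end main

end Vale.Agent.P011.H518.Real
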