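import Vale.Agent.P011.H518.Real.Core

/-!
# Conjugation invariance from additivity

`H` and `Hp` are two groups, `Hp` is bigger.  A function which is multiplicative close to one on
`Hp` is invariant under conjugation with the elements of `H`, close to one.
-/

open Filter Topology

set_option linter.unusedSectionVars false

namespace Vale.Agent.P011.H518.Real

variable {D R E : Type*} [DivisionRing D] [NormedRing R] [CompleteSpace R] [Nontrivial R]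
  [CommGroup E]

theorem ne_zero_of_near (j : D →+* R) {x : D} (h : ‖j x - 1‖ < 1) : x ≠ 0 := by
  rintro rfl
  rw [map_zero, zero_sub, norm_neg] at h
  have h1 : (1 : ℝ) ≤ ‖(1 : R)‖ := one_le_norm_one R
  exact absurd h (not_lt.2 h1)

/-- The algebraic identity. -/
theorem conj_id {p g m t e y : D} (hp : p ≠ 0) (hpc : ∀ x, p * x = x * p) (hg : g ≠ 0)
    (ht : t = 1 + p * g) (he : e = g * (m + p⁻¹ * (g⁻¹ * (m - 1)))) (he0 : e ≠ 0)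
    (hy : y = g * e⁻¹) : y * (t * m) * y⁻¹ = t * (g * m * g⁻¹) := by
  have hpi : ∀ x, p⁻¹ * x = x * p⁻¹ := fun x => by
    have h1 := hpc x
    calc p⁻¹ * x = p⁻¹ * x * (p * p⁻¹) := by rw [mul_inv_cancel₀ hp, mul_one]
      _ = p⁻¹ * (x * p) * p⁻¹ := by simp only [mul_assoc]
      _ = p⁻¹ * (p * x) * p⁻¹ := by rw [h1]
      _ = x * p⁻¹ := by rw [← mul_assoc p⁻¹, inv_mul_cancel₀ hp, one_mul]
  have e1 : e = p⁻¹ * (t * m - 1) := by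
    have h1 : g * (p⁻¹ * (g⁻¹ * (m - 1))) = p⁻¹ * (m - 1) := by
      rw [← mul_assoc, ← hpi, mul_assoc, mul_inv_cancel_left₀ hg]
    have h2 : p⁻¹ * (p * g * m) = g * m := by rw [mul_assoc, inv_mul_cancel_left₀ hp]
    rw [he, ht, mul_add, h1, add_mul, one_mul, add_sub_right_comm, mul_add, h2, add_comm]
  have e2 : e * (t * m) = (t * m) * e := by
    have h1 : (t * m - 1) * (t * m) = (t * m) * (t * m - 1) := by
      rw [sub_mul, mul_sub, one_mul, mul_one]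
    rw [e1]
    calc p⁻¹ * (t * m - 1) * (t * m) = p⁻¹ * ((t * m) * (t * m - 1)) := by
          rw [mul_assoc, h1]
      _ = (t * m) * (p⁻¹ * (t * m - 1)) := by
          rw [← mul_assoc, hpi (t * m), mul_assoc]
  have e3 : e⁻¹ * (t * m) = (t * m) * e⁻¹ := by
    calc e⁻¹ * (t * m) = e⁻¹ * (t * m * e) * e⁻¹ := by
          rw [mul_assoc, mul_assoc (t * m), mul_inv_cancel₀ he0, mul_one]
      _ = e⁻¹ * (e * (t * m)) * e⁻¹ := by rw [e2]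
      _ = (t * m) * e⁻¹ := by rw [inv_mul_cancel_left₀ he0]
  have e4 : g * t = t * g := by
    rw [ht, mul_add, add_mul, mul_one, one_mul, ← mul_assoc, ← hpc g]
  rw [hy, mul_inv_rev, inv_inv]
  calc g * e⁻¹ * (t * m) * (e * g⁻¹) = g * (e⁻¹ * (t * m)) * e * g⁻¹ := by simp only [mul_assoc]
    _ = g * (t * m) * (e⁻¹ * e) * g⁻¹ := by rw [e3]; simp only [mul_assoc]
    _ = g * t * m * g⁻¹ := by rw [inv_mul_cancel₀ he0, mul_one]; simp only [mul_assoc]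
    _ = t * (g * m * g⁻¹) := by rw [e4]; simp only [mul_assoc]

/-- **Local invariance.** -/
theorem conj_germ {j : D →+* R} {H Hp : Set D} (hH : Grp H) (hHp : Grp Hp) (hsub : H ⊆ Hp)
    (tw : ∀ η : ℝ, 0 < η → ∃ p : D, p ≠ 0 ∧ (∀ x, p * x = x * p) ∧ ‖j p‖ < η ∧
      (∀ g ∈ H, 1 + p * g ≠ 0 → 1 + p * g ∈ Hp) ∧
      ∀ g ∈ H, ∀ m ∈ H, m + p⁻¹ * (g⁻¹ * (m - 1)) ≠ 0 → m + p⁻¹ * (g⁻¹ * (m - 1)) ∈ Hp)
    {P : D → E} {δ : ℝ} (hδ : 0 < δ)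
    (add : ∀ x ∈ Nr j Hp δ, ∀ y ∈ Nr j Hp δ, P (x * y) = P x * P y) (X : R) (hX : IsUnit X) :
    ∃ ρ : ℝ, 0 < ρ ∧ ∃ δ' : ℝ, 0 < δ' ∧ ∀ g ∈ H, ‖j g - X‖ < ρ → ∀ x ∈ Nr j H δ',
      P (g * x * g⁻¹) = P x := by
  obtain ⟨δ₀, hδ₀, hd1, hd2⟩ : ∃ δ₀ : ℝ, 0 < δ₀ ∧ δ₀ ≤ δ ∧ δ₀ ≤ 1 :=
    ⟨min δ 1, lt_min hδ one_pos, min_le_left _ _, min_le_right _ _⟩
  obtain ⟨p, hp, hpc, hpn, h1, h2⟩ := tw (δ₀ / (‖X‖ + 1)) (by positivity)
  have hcX : ‖j p * X‖ < δ₀ := by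
    have h3 : (0 : ℝ) < ‖X‖ + 1 := by positivity
    calc ‖j p * X‖ ≤ ‖j p‖ * ‖X‖ := norm_mul_le _ _
      _ ≤ ‖j p‖ * (‖X‖ + 1) := mul_le_mul_of_nonneg_left (by linarith) (norm_nonneg _)
      _ < δ₀ / (‖X‖ + 1) * (‖X‖ + 1) := mul_lt_mul_of_pos_right hpn h3
      _ = δ₀ := by field_simp
  have hfst : Tendsto (fun q : R × R => q.1) (𝓝 (X, 1)) (𝓝 X) := continuous_fst.tendsto _
  have hsnd : Tendsto (fun q : R × R => q.2) (𝓝 (X, 1)) (𝓝 1) := continuous_snd.tendsto _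
  have hfi : Tendsto (fun q : R × R => Ring.inverse q.1) (𝓝 (X, 1)) (𝓝 (Ring.inverse X)) :=
    tendsto_inverse hX hfst
  have t1 : Tendsto (fun q : R × R => 1 + j p * q.1) (𝓝 (X, 1)) (𝓝 (1 + j p * X)) :=
    (hfst.const_mul _).const_add 1
  have t2 : Tendsto (fun q : R × R => q.2 + j p⁻¹ * (Ring.inverse q.1 * (q.2 - 1)))
      (𝓝 (X, 1)) (𝓝 1) := by
    have h3 := hsnd.add ((hfi.mul (hsnd.sub_const 1)).const_mul (j p⁻¹))
    rwa [sub_self, mul_zero, mul_zero, add_zero] at h3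
  have t2i : Tendsto (fun q : R × R => Ring.inverse
      (q.2 + j p⁻¹ * (Ring.inverse q.1 * (q.2 - 1)))) (𝓝 (X, 1)) (𝓝 1) := by
    have h3 := tendsto_inverse isUnit_one t2
    rwa [Ring.inverse_one] at h3
  -- `y`, `y⁻¹`
  have t3 : Tendsto (fun q : R × R => q.1 * Ring.inverse
      (q.2 + j p⁻¹ * (Ring.inverse q.1 * (q.2 - 1))) * Ring.inverse q.1) (𝓝 (X, 1)) (𝓝 1) := by
    have h3 := (hfst.mul t2i).mul hfi
    rwa [mul_one, Ring.mul_inverse_cancel _ hX] at h3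
  have t4 : Tendsto (fun q : R × R => q.1 *
      (q.2 + j p⁻¹ * (Ring.inverse q.1 * (q.2 - 1))) * Ring.inverse q.1) (𝓝 (X, 1)) (𝓝 1) := by
    have h3 := (hfst.mul t2).mul hfi
    rwa [mul_one, Ring.mul_inverse_cancel _ hX] at h3
  have t5 : Tendsto (fun q : R × R => (1 + j p * q.1) * q.2) (𝓝 (X, 1)) (𝓝 (1 + j p * X)) := by
    have h3 := t1.mul hsnd
    rwa [mul_one] at h3
  have t6 : Tendsto (fun q : R × R => (1 + j p * q.1) * q.2 * (q.1 *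
      (q.2 + j p⁻¹ * (Ring.inverse q.1 * (q.2 - 1))) * Ring.inverse q.1)) (𝓝 (X, 1))
      (𝓝 (1 + j p * X)) := by
    have h3 := t5.mul t4
    rwa [mul_one] at h3
  have t7 : Tendsto (fun q : R × R => q.1 * q.2 * Ring.inverse q.1) (𝓝 (X, 1)) (𝓝 1) := by
    have h3 := (hfst.mul hsnd).mul hfi
    rwa [mul_one, Ring.mul_inverse_cancel _ hX] at h3
  have hn : ∀ {f : R × R → R} {c : R}, Tendsto f (𝓝 (X, 1)) (𝓝 c) → ‖c - 1‖ < δ₀ →
      ∀ᶠ q in 𝓝 (X, (1 : R)), ‖f q - 1‖ < δ₀ := fun h h3 =>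
    ((h.sub_const 1).norm).eventually_lt_const h3
  have hc1 : ‖1 + j p * X - 1‖ < δ₀ := by rwa [add_sub_cancel_left]
  have hc0 : ‖(1 : R) - 1‖ < δ₀ := by rwa [sub_self, norm_zero]
  obtain ⟨ρ, hρ, hb⟩ := Metric.eventually_nhds_iff.mp ((hn t1 hc1).and ((hn t2 hc0).and
    ((hn t3 hc0).and ((hn t4 hc0).and ((hn t5 hc1).and ((hn t6 hc1).and ((hn t7 hc0).and
    (hn hsnd hc0))))))))
  refine ⟨ρ, hρ, ρ, hρ, fun g hg hgn m hm => ?_⟩
  obtain ⟨a1, a2, a3, a4, a5, a6, a7, a8⟩ := hb (y := (j g, j m)) (by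
    rw [Prod.dist_eq, dist_eq_norm, dist_eq_norm]
    exact max_lt hgn hm.2)
  have hg0 : g ≠ 0 := hH.ne hg
  simp only at a1 a2 a3 a4 a5 a6 a7 a8
  rw [← j_inv j hg0] at a2 a3 a4 a6 a7
  obtain ⟨t, ht⟩ : ∃ t, t = 1 + p * g := ⟨_, rfl⟩
  obtain ⟨m', hm'⟩ : ∃ m', m' = m + p⁻¹ * (g⁻¹ * (m - 1)) := ⟨_, rfl⟩
  have jt : j t = 1 + j p * j g := by rw [ht, map_add, map_one, map_mul]
  have jm' : j m' = j m + j p⁻¹ * (j g⁻¹ * (j m - 1)) := by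
    rw [hm', map_add, map_mul, map_mul, map_sub, map_one]
  rw [← jt] at a1 a5 a6
  rw [← jm'] at a2 a3 a4 a6
  have ht0 : t ≠ 0 := ne_zero_of_near j (a1.trans_le hd2)
  have hm0 : m' ≠ 0 := ne_zero_of_near j (a2.trans_le hd2)
  rw [← j_inv j hm0] at a3
  have htH : t ∈ Hp := by
    rw [ht] at ht0 ⊢
    exact h1 g hg ht0
  have hmH : m' ∈ Hp := by
    rw [hm'] at hm0 ⊢
    exact h2 g hg m hm.1 hm0
  have hgH : g ∈ Hp := hsub hg
  have hgiH : g⁻¹ ∈ Hp := hHp.inv hgH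
  obtain ⟨y, hy⟩ : ∃ y, y = g * (g * m')⁻¹ := ⟨_, rfl⟩
  have hy1 : y = g * m'⁻¹ * g⁻¹ := by rw [hy, mul_inv_rev, mul_assoc]
  have hy2 : y⁻¹ = g * m' * g⁻¹ := by
    rw [hy, mul_inv_rev, inv_inv]
  have ny : y ∈ Nr j Hp δ := by
    refine ⟨?_, ?_⟩
    · rw [hy1]
      exact hHp.mul (hHp.mul hgH (hHp.inv hmH)) hgiH
    · rw [hy1, map_mul, map_mul]
      exact a3.trans_le hd1
  have nyi : y⁻¹ ∈ Nr j Hp δ := by
    refine ⟨hHp.inv ny.1, ?_⟩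
    rw [hy2, map_mul, map_mul]
    exact a4.trans_le hd1
  have nt : t ∈ Nr j Hp δ := ⟨htH, a1.trans_le hd1⟩
  have nm : m ∈ Nr j Hp δ := ⟨hsub hm.1, a8.trans_le hd1⟩
  have ntm : t * m ∈ Nr j Hp δ := by
    refine ⟨hHp.mul htH nm.1, ?_⟩
    rw [map_mul]
    exact a5.trans_le hd1
  have ntmy : t * m * y⁻¹ ∈ Nr j Hp δ := by
    refine ⟨hHp.mul ntm.1 nyi.1, ?_⟩
    rw [hy2, map_mul, map_mul, map_mul, map_mul]
    exact a6.trans_le hd1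
  have nc : g * m * g⁻¹ ∈ Nr j Hp δ := by
    refine ⟨hHp.mul (hHp.mul hgH nm.1) hgiH, ?_⟩
    rw [map_mul, map_mul]
    exact a7.trans_le hd1
  have hP1 : P 1 = 1 := by
    have h1n : (1 : D) ∈ Nr j Hp δ := ⟨hHp.one, by rw [map_one, sub_self, norm_zero]; exact hδ⟩
    have h := add 1 h1n 1 h1n
    rw [mul_one] at h
    exact mul_eq_left.mp h.symm
  have hy0 : y ≠ 0 := hHp.ne ny.1
  have hPy : P y * P y⁻¹ = 1 := by
    rw [← add _ ny _ nyi, mul_inv_cancel₀ hy0, hP1]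
  have hid := conj_id (y := y) hp hpc hg0 ht (by rw [← hm']) (mul_ne_zero hg0 hm0) hy
  have hP := congrArg P hid
  rw [add _ nt _ nc, mul_assoc y, add _ ny _ ntmy, add _ ntm _ nyi, add _ nt _ nm] at hP
  have h5 : P y * (P t * P m * P y⁻¹) = P t * P m := by
    calc P y * (P t * P m * P y⁻¹) = P y * P y⁻¹ * (P t * P m) := by ac_rfl
      _ = _ := by rw [hPy, one_mul]
  rw [h5] at hP
  exact (mul_left_cancel hP).symm

end Vale.Agent.P011.H518.Real
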