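import Vale.Agent.P011.H518.Real.Ext
import Vale.Agent.P011.H518.Real.Conj
import Vale.Agent.P011.H36.Path
import Vale.Agent.P011.H494.DiagC

/-!
# The extension for a division algebra embedded in complex matrix rings

The embeddings belong to embeddings of the centre in the complex numbers for which a central
element is purely imaginary.
-/

open Filter Topology Matrix

set_option linter.unusedSectionVars false

noncomputable section

namespace Vale.Agent.P011.H518.Real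

/-- The product of the matrix rings. -/
abbrev RR (T : Type*) (n : ℕ) := T → Matrix (Fin n) (Fin n) ℂ

section norm

attribute [local instance] Matrix.linftyOpNormedRing Matrix.linftyOpNormedAlgebra

variable {T : Type*} [Fintype T] {n : ℕ}

theorem entry_le (A : Matrix (Fin n) (Fin n) ℂ) (a b : Fin n) : ‖A a b‖ ≤ ‖A‖ := by
  rw [Matrix.linfty_opNorm_def]
  have h1 : ‖A a b‖₊ ≤ ∑ b, ‖A a b‖₊ :=
    Finset.single_le_sum (f := fun b => ‖A a b‖₊) (fun _ _ => bot_le) (Finset.mem_univ b)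
  have h2 : ∑ b, ‖A a b‖₊ ≤ Finset.univ.sup fun a => ∑ b, ‖A a b‖₊ :=
    Finset.le_sup (f := fun a => ∑ b, ‖A a b‖₊) (Finset.mem_univ a)
  exact_mod_cast h1.trans h2

theorem norm_le_of_entry {A : Matrix (Fin n) (Fin n) ℂ} {c : ℝ} (hc : 0 ≤ c)
    (h : ∀ a b, ‖A a b‖ ≤ c) : ‖A‖ ≤ n * c := by
  lift c to NNReal using hc
  rw [Matrix.linfty_opNorm_def]
  have h1 : (Finset.univ.sup fun a => ∑ b, ‖A a b‖₊) ≤ n * c := by
    refine Finset.sup_le fun a _ => ?_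
    calc ∑ b, ‖A a b‖₊ ≤ ∑ _b : Fin n, c := Finset.sum_le_sum fun b _ => h a b
      _ = n * c := by rw [Finset.sum_const, Finset.card_univ, Fintype.card_fin, nsmul_eq_mul]
  exact_mod_cast h1

end norm

/-- Closeness to one, in entries. -/
def Pn {D T : Type*} [DivisionRing D] {n : ℕ} (J : T → (D →+* Matrix (Fin n) (Fin n) ℂ)) (δ : ℝ)
    (x : D) : Prop := ∀ t a b, ‖(J t x - 1) a b‖ < δ

section main

attribute [local instance] Matrix.linftyOpNormedRing Matrix.linftyOpNormedAlgebra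

variable {K D E T : Type*} [Field K] [DivisionRing D] [Algebra K D] [CommGroup E] [Fintype T]
  [Nonempty T] {n : ℕ} [NeZero n] {J : T → (D →+* Matrix (Fin n) (Fin n) ℂ)}

theorem pn_of_nr {H : Set D} {δ : ℝ} {x : D}
    (h : x ∈ Nr (RingHom.pi J : D →+* RR T n) H δ) : Pn J δ x := by
  intro t a b
  refine lt_of_le_of_lt (entry_le _ a b) (lt_of_le_of_lt ?_ h.2)
  exact norm_le_pi_norm (RingHom.pi J x - 1) t

theorem nr_of_pn {H : Set D} {δ : ℝ} (hδ : 0 < δ) {x : D} (hx : x ∈ H)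
    (h : Pn J (δ / (n + 1)) x) : x ∈ Nr (RingHom.pi J : D →+* RR T n) H δ := by
  refine ⟨hx, ?_⟩
  have hn : (0 : ℝ) < n + 1 := by positivity
  refine (pi_norm_lt_iff hδ).2 fun t => ?_
  refine lt_of_le_of_lt (norm_le_of_entry (c := δ / (n + 1)) (by positivity)
    fun a b => (h t a b).le) ?_
  rw [mul_div_assoc', div_lt_iff₀ hn]
  nlinarith

/-- **The data in the concrete situation.** -/
structure Con (τ : T → (K →+* ℂ)) (J : T → (D →+* Matrix (Fin n) (Fin n) ℂ)) (O : Subring K)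
    (H F : Set D) : Prop where
  J_alg : ∀ t c, J t (algebraMap K D c) = τ t c • (1 : Matrix (Fin n) (Fin n) ℂ)
  /-- a purely imaginary element -/
  imag : ∃ s ∈ O, ∀ t, ∃ β : ℝ, β ≠ 0 ∧ τ t s = (β : ℂ) * Complex.I
  /-- denominators -/
  den : ∀ N : ℕ, ∃ M : ℕ, N ≤ M ∧ 0 < M ∧ (M : K)⁻¹ ∈ O
  grp : Grp H
  conv : ∀ z ∈ O, ∀ h ∈ H, 1 + algebraMap K D z * (h - 1) ≠ 0 →
    1 + algebraMap K D z * (h - 1) ∈ H
  /-- density -/
  dense : ∀ X : T → Matrix (Fin n) (Fin n) ℂ, (∀ t, IsUnit (X t)) → ∃ x : ℕ → D,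
    (∀ m, x m ∈ H) ∧ ∀ t, Tendsto (fun m => J t (x m)) atTop (𝓝 (X t))
  Fone : (1 : D) ∈ F
  Fmul : ∀ x ∈ F, ∀ y ∈ F, x * y ∈ F
  Finv : ∀ x ∈ F, x⁻¹ ∈ F
  /-- density in the maximal subfield -/
  denseF : ∃ s₁ : D, (∀ t, (J t s₁).charpoly.Separable) ∧
    ∀ X : T → Matrix (Fin n) (Fin n) ℂ, (∀ t, IsUnit (X t)) → (∀ t, Commute (X t) (J t s₁)) →
      ∃ x : ℕ → D, (∀ m, x m ∈ F) ∧ (∀ m, x m ∈ H) ∧
        ∀ t, Tendsto (fun m => J t (x m)) atTop (𝓝 (X t))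
  sep : ∀ h ∈ H, ∀ t, ∃ p : Polynomial ℂ, p.Separable ∧ Polynomial.aeval (J t h) p = 0

/-- **Two groups**: the smaller one consists of elements much closer to one. -/
structure Two {K D T : Type*} [Field K] [DivisionRing D] [Algebra K D] (τ : T → (K →+* ℂ))
    (H Hp : Set D) : Prop where
  grp : Grp Hp
  sub : H ⊆ Hp
  tw : ∀ η : ℝ, 0 < η → ∃ p : K, p ≠ 0 ∧ (∀ t, ‖τ t p‖ < η) ∧
    (∀ g ∈ H, 1 + algebraMap K D p * g ≠ 0 → 1 + algebraMap K D p * g ∈ Hp) ∧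
    ∀ g ∈ H, ∀ m ∈ H, m + algebraMap K D p⁻¹ * (g⁻¹ * (m - 1)) ≠ 0 →
      m + algebraMap K D p⁻¹ * (g⁻¹ * (m - 1)) ∈ Hp

namespace Con

variable {τ : T → (K →+* ℂ)} {O : Subring K} {H F : Set D} (c : Con τ J O H F)

/-- The parameters. -/
def ZZ (D : Type*) [DivisionRing D] {K : Type*} [Field K] [Algebra K D] (O : Subring K) : Set D :=
  {z | ∃ a ∈ O, z = algebraMap K D a}

include c

theorem natCast_ne {M : ℕ} (hM : 0 < M) : (M : K) ≠ 0 := by
  obtain ⟨t⟩ := ‹Nonempty T›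
  intro h0
  have h1 := congrArg (τ t) h0
  rw [map_natCast, map_zero] at h1
  exact hM.ne' (by exact_mod_cast h1)

theorem natCast_neD {M : ℕ} (hM : 0 < M) : (M : D) ≠ 0 := by
  rw [← map_natCast (algebraMap K D)]
  exact (map_ne_zero _).2 (c.natCast_ne hM)

/-- The field `path`. -/
theorem path (X : RR T n) (hX : IsUnit X) (η : ℝ) (hη : 0 < η) :
    ∃ (M : ℕ) (z : ℕ → D), (∀ i, z i ∈ ZZ D O) ∧ z 0 = 0 ∧ z M = 1 ∧
      (∀ i ≤ M, IsUnit (1 + (RingHom.pi J : D →+* RR T n) (z i) * (X - 1))) ∧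
      ∀ i < M, ‖Ring.inverse (1 + (RingHom.pi J : D →+* RR T n) (z i) * (X - 1)) *
        (1 + (RingHom.pi J : D →+* RR T n) (z (i + 1)) * (X - 1)) - 1‖ < η := by
  obtain ⟨s, hsO, hs⟩ := c.imag
  choose β hβ hsβ using hs
  obtain ⟨y, hy⟩ := H36.path_mat β hβ X fun t => hX.map (Pi.evalRingHom _ t)
  set p : ℝ → RR T n := fun u t =>
    1 + (((u : ℂ) + (u * (1 - u) * y * β t : ℝ) * Complex.I)) • (X t - 1) with hp
  have hpc : Continuous p := by
    refine continuous_pi fun t => ?_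
    have hcc : Continuous fun u : ℝ =>
        ((u : ℂ) + ((u * (1 - u) * y * β t : ℝ) : ℂ) * Complex.I) := by fun_prop
    have hcm : ∀ a b, Continuous fun u : ℝ =>
        (1 + (((u : ℂ) + ((u * (1 - u) * y * β t : ℝ) : ℂ) * Complex.I)) • (X t - 1) :
          Matrix (Fin n) (Fin n) ℂ) a b := fun a b =>
      continuous_const.add (hcc.mul continuous_const)
    exact continuous_pi fun a => continuous_pi fun b => hcm a b
  have hpu : ∀ u ∈ Set.Icc (0 : ℝ) 1, IsUnit (p u) := fun u hu => by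
    rw [Pi.isUnit_iff]
    exact fun t => hy t u hu
  obtain ⟨ρ, hρ, hq⟩ := path_unif hpc.continuousOn hpu hη
  obtain ⟨N, hN⟩ := exists_nat_gt (1 / ρ)
  obtain ⟨M, hNM, hM0, hMO⟩ := c.den N
  have hMr : (0 : ℝ) < M := by exact_mod_cast hM0
  have hMK := c.natCast_ne hM0
  obtain ⟨ζ, hζ⟩ : ∃ ζ : ℕ → K, ζ = fun i : ℕ =>
    (i : K) * (M : K)⁻¹ + (i : K) * (M : K)⁻¹ * (1 - (i : K) * (M : K)⁻¹) * y * s := ⟨_, rfl⟩
  have hζO : ∀ i, ζ i ∈ O := by
    intro i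
    have h1 : (i : K) * (M : K)⁻¹ ∈ O := O.mul_mem (natCast_mem O i) hMO
    rw [hζ]
    exact O.add_mem h1 (O.mul_mem (O.mul_mem (O.mul_mem h1 (O.sub_mem O.one_mem h1))
      (natCast_mem O y)) hsO)
  have hjz : ∀ i, 1 + (RingHom.pi J : D →+* RR T n) (algebraMap K D (ζ i)) * (X - 1) =
      p ((i : ℝ) / M) := by
    intro i
    funext t
    have h1 : τ t (ζ i) = (((i : ℝ) / M : ℝ) : ℂ) +
        ((((i : ℝ) / M) * (1 - (i : ℝ) / M) * y * β t : ℝ) : ℂ) * Complex.I := by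
      rw [hζ]
      simp only [map_add, map_mul, map_sub, map_one, map_natCast, map_inv₀, hsβ]
      push_cast
      rw [div_eq_mul_inv]
      ring
    have h2 : (1 + (RingHom.pi J : D →+* RR T n) (algebraMap K D (ζ i)) * (X - 1)) t =
        1 + J t (algebraMap K D (ζ i)) * (X t - 1) := rfl
    rw [h2, c.J_alg, h1, smul_mul_assoc, one_mul]
  refine ⟨M, fun i => algebraMap K D (ζ i), fun i => ⟨ζ i, hζO i, rfl⟩, ?_, ?_, ?_, ?_⟩
  · change algebraMap K D (ζ 0) = 0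
    rw [hζ]
    simp
  · change algebraMap K D (ζ M) = 1
    rw [hζ]
    simp [mul_inv_cancel₀ hMK]
  · intro i hi
    rw [hjz]
    exact hpu _ ⟨by positivity, by rw [div_le_one hMr]; exact_mod_cast hi⟩
  · intro i hi
    rw [hjz, hjz]
    refine hq _ ⟨by positivity, by rw [div_le_one hMr]; exact_mod_cast hi.le⟩ _
      ⟨by positivity, by rw [div_le_one hMr]; exact_mod_cast hi⟩ ?_
    have h2 : (i : ℝ) / M - ((i + 1 : ℕ) : ℝ) / M = -(1 / M) := by
      push_cast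
      field_simp
      ring
    rw [h2, abs_neg, abs_of_pos (by positivity), div_lt_iff₀ hMr]
    have h3 : (N : ℝ) ≤ M := by exact_mod_cast hNM
    rw [div_lt_iff₀ hρ] at hN
    nlinarith

/-- The field `diag`. -/
theorem diag (h : D) (hh : h ∈ H) : ∃ (C : Set D) (G : RR T n), Cl (ZZ D O) C ∧ h ∈ C ∧ IsUnit G ∧
    (∃ g : ℕ → D, (∀ k, g k ∈ H) ∧
      Tendsto (fun k => (RingHom.pi J : D →+* RR T n) (g k)) atTop (𝓝 G)) ∧
    ∀ x ∈ H, x ∈ C → ∃ f : ℕ → D, (∀ k, f k ∈ F) ∧ (∀ k, f k ∈ H) ∧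
      Tendsto (fun k => (RingHom.pi J : D →+* RR T n) (f k)) atTop
        (𝓝 (G * (RingHom.pi J : D →+* RR T n) x * Ring.inverse G)) := by
  obtain ⟨s₁, hs₁, hdF⟩ := c.denseF
  have hB : ∀ t, ∃ (B : (Matrix (Fin n) (Fin n) ℂ)ˣ) (v : Fin n → ℂ),
      ((B⁻¹ : (Matrix (Fin n) (Fin n) ℂ)ˣ) : Matrix (Fin n) (Fin n) ℂ) * J t h * B =
        diagonal v := fun t => by
    obtain ⟨p, hp, h0⟩ := c.sep h hh t
    exact H494.DiagC.diag_of_sep (J t h) hp h0
  choose B v hBv using hB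
  have hA : ∀ t, ∃ A : (Matrix (Fin n) (Fin n) ℂ)ˣ, ∀ X : Matrix (Fin n) (Fin n) ℂ,
      Commute X (J t s₁) ↔ ∃ w : Fin n → ℂ,
        ((A⁻¹ : (Matrix (Fin n) (Fin n) ℂ)ˣ) : Matrix (Fin n) (Fin n) ℂ) * X * A =
          diagonal w := fun t => by
    obtain ⟨A, _, -, -, h1, -⟩ := H494.DiagC.diag_main (J t s₁) (hs₁ t)
    exact ⟨A, h1⟩
  choose A hA using hA
  set C : Set D := {x | ∀ t, ∃ w : Fin n → ℂ,
    (((B t)⁻¹ : (Matrix (Fin n) (Fin n) ℂ)ˣ) : Matrix (Fin n) (Fin n) ℂ) * J t x * B t =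
      diagonal w} with hC
  have hcl : Cl (ZZ D O) C := by
    refine ⟨fun t => ⟨fun _ => 1, ?_⟩, ?_, ?_, ?_, ?_, ?_⟩
    · rw [map_one, mul_one, Units.inv_mul]
      exact (diagonal_one (n := Fin n) (α := ℂ)).symm
    · intro x y hx hy t
      obtain ⟨w, hw⟩ := hx t
      obtain ⟨w', hw'⟩ := hy t
      refine ⟨fun i => w i * w' i, ?_⟩
      rw [← diagonal_mul_diagonal, ← hw, ← hw', map_mul]
      calc _ = (((B t)⁻¹ : (Matrix (Fin n) (Fin n) ℂ)ˣ) : Matrix (Fin n) (Fin n) ℂ) * J t x *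
            (B t * (((B t)⁻¹ : (Matrix (Fin n) (Fin n) ℂ)ˣ) : Matrix (Fin n) (Fin n) ℂ)) *
            J t y * B t := by rw [Units.mul_inv, mul_one]; simp only [mul_assoc]
        _ = _ := by simp only [mul_assoc]
    · intro x y hx hy t
      obtain ⟨w, hw⟩ := hx t
      obtain ⟨w', hw'⟩ := hy t
      refine ⟨fun i => w i + w' i, ?_⟩
      rw [← diagonal_add, ← hw, ← hw', map_add, mul_add, add_mul]
    · intro x hx t
      obtain ⟨w, hw⟩ := hx t
      refine ⟨fun i => -w i, ?_⟩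
      have h1 := congrArg Neg.neg hw
      rw [diagonal_neg] at h1
      rw [map_neg, mul_neg, neg_mul]
      exact h1
    · intro x hx t
      obtain ⟨w, hw⟩ := hx t
      rcases eq_or_ne x 0 with rfl | hx0
      · exact ⟨w, by rw [_root_.inv_zero]; exact hw⟩
      have hJx : J t x * J t x⁻¹ = 1 := by rw [← map_mul, mul_inv_cancel₀ hx0, map_one]
      have hJx' : J t x⁻¹ * J t x = 1 := by rw [← map_mul, inv_mul_cancel₀ hx0, map_one]
      obtain ⟨Y, hY⟩ : ∃ Y : Matrix (Fin n) (Fin n) ℂ, Y =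
        (((B t)⁻¹ : (Matrix (Fin n) (Fin n) ℂ)ˣ) : Matrix (Fin n) (Fin n) ℂ) * J t x⁻¹ * B t :=
        ⟨_, rfl⟩
      have h1 : diagonal w * Y = 1 := by
        rw [← hw, hY]
        calc _ = (((B t)⁻¹ : (Matrix (Fin n) (Fin n) ℂ)ˣ) : Matrix (Fin n) (Fin n) ℂ) * J t x *
              (B t * (((B t)⁻¹ : (Matrix (Fin n) (Fin n) ℂ)ˣ) : Matrix (Fin n) (Fin n) ℂ)) *
              J t x⁻¹ * B t := by simp only [mul_assoc]
          _ = (((B t)⁻¹ : (Matrix (Fin n) (Fin n) ℂ)ˣ) : Matrix (Fin n) (Fin n) ℂ) *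
              (J t x * J t x⁻¹) * B t := by rw [Units.mul_inv, mul_one]; simp only [mul_assoc]
          _ = 1 := by rw [hJx, mul_one, Units.inv_mul]
      have hw0 : ∀ i, w i ≠ 0 := by
        intro i h0
        have h2 := congrFun (congrFun h1 i) i
        rw [diagonal_mul, h0, zero_mul, one_apply_eq] at h2
        exact zero_ne_one h2
      refine ⟨fun i => (w i)⁻¹, ?_⟩
      rw [← hY]
      calc Y = diagonal (fun i => (w i)⁻¹) * diagonal w * Y := by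
            rw [diagonal_mul_diagonal]
            simp [hw0]
        _ = diagonal (fun i => (w i)⁻¹) := by rw [mul_assoc, h1, mul_one]
    · rintro z ⟨a, -, rfl⟩ t
      refine ⟨fun _ => τ t a, ?_⟩
      rw [c.J_alg, mul_smul_comm, mul_one, smul_mul_assoc, Units.inv_mul, smul_one_eq_diagonal]
  obtain ⟨G, hG⟩ : ∃ G : (RR T n)ˣ, (G : RR T n) = (fun t => (A t * (B t)⁻¹ :
      (Matrix (Fin n) (Fin n) ℂ)ˣ).val) ∧ ((G⁻¹ : (RR T n)ˣ) : RR T n) = (fun t =>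
      (B t * (A t)⁻¹ : (Matrix (Fin n) (Fin n) ℂ)ˣ).val) := by
    refine ⟨⟨fun t => (A t * (B t)⁻¹ : (Matrix (Fin n) (Fin n) ℂ)ˣ).val,
      fun t => (B t * (A t)⁻¹ : (Matrix (Fin n) (Fin n) ℂ)ˣ).val, ?_, ?_⟩, rfl, rfl⟩
    · funext t
      change (A t * (B t)⁻¹ : (Matrix (Fin n) (Fin n) ℂ)ˣ).val *
        (B t * (A t)⁻¹ : (Matrix (Fin n) (Fin n) ℂ)ˣ).val = 1
      rw [← Units.val_mul, ← Units.val_one]
      congr 1
      group
    · funext t
      change (B t * (A t)⁻¹ : (Matrix (Fin n) (Fin n) ℂ)ˣ).val *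
        (A t * (B t)⁻¹ : (Matrix (Fin n) (Fin n) ℂ)ˣ).val = 1
      rw [← Units.val_mul, ← Units.val_one]
      congr 1
      group
  refine ⟨C, G, hcl, fun t => ⟨v t, hBv t⟩, G.isUnit, ?_, ?_⟩
  · obtain ⟨g, hg, tg⟩ := c.dense (fun t => (A t * (B t)⁻¹ : (Matrix (Fin n) (Fin n) ℂ)ˣ).val)
      fun t => Units.isUnit _
    refine ⟨g, hg, ?_⟩
    rw [hG.1]
    exact tendsto_pi_nhds.mpr tg
  · intro x hxH hxC
    rw [Ring.inverse_unit]
    obtain ⟨f, hfF, hfH, tf⟩ := hdF (fun t => (A t * (B t)⁻¹ : (Matrix (Fin n) (Fin n) ℂ)ˣ).val *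
      J t x * (B t * (A t)⁻¹ : (Matrix (Fin n) (Fin n) ℂ)ˣ).val)
      (fun t => ((Units.isUnit _).mul ((IsUnit.mk0 x (c.grp.ne hxH)).map (J t))).mul
        (Units.isUnit _)) (fun t => by
      rw [hA]
      obtain ⟨w, hw⟩ := hxC t
      refine ⟨w, ?_⟩
      rw [← hw, Units.val_mul, Units.val_mul]
      calc _ = ((((A t)⁻¹ : (Matrix (Fin n) (Fin n) ℂ)ˣ) : Matrix (Fin n) (Fin n) ℂ) * A t) *
            (((B t)⁻¹ : (Matrix (Fin n) (Fin n) ℂ)ˣ) : Matrix (Fin n) (Fin n) ℂ) * J t x * B t *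
            ((((A t)⁻¹ : (Matrix (Fin n) (Fin n) ℂ)ˣ) : Matrix (Fin n) (Fin n) ℂ) * A t) := by
            simp only [mul_assoc]
        _ = _ := by rw [Units.inv_mul, one_mul, mul_one])
    refine ⟨f, hfF, hfH, ?_⟩
    rw [hG.1, hG.2]
    exact tendsto_pi_nhds.mpr tf

/-- The abstract data. -/
theorem dat {P χ : D → E} {δ : ℝ} (hδ : 0 < δ)
    (add : ∀ x ∈ H, ∀ y ∈ H, Pn J δ x → Pn J δ y → P (x * y) = P x * P y)
    (conj : ∀ X : RR T n, IsUnit X → ∃ ρ : ℝ, 0 < ρ ∧ ∃ δ' : ℝ, 0 < δ' ∧ ∀ g ∈ H,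
      ‖(RingHom.pi J : D →+* RR T n) g - X‖ < ρ →
      ∀ x ∈ Nr (RingHom.pi J : D →+* RR T n) H δ', P (g * x * g⁻¹) = P x)
    (χmul : ∀ x ∈ F, ∀ y ∈ F, x ∈ H → y ∈ H → χ (x * y) = χ x * χ y)
    (Fχ : ∀ x ∈ F, x ∈ H → Pn J δ x → P x = χ x) :
    Dat (RingHom.pi J : D →+* RR T n) H F (ZZ D O) P χ (min δ 1) := by
  have hup : ∀ x, x ∈ Nr (RingHom.pi J : D →+* RR T n) H (min δ 1) → Pn J δ x := fun x hx t a b =>
    (pn_of_nr hx t a b).trans_le (min_le_left _ _)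
  exact
    { grp := c.grp
      pos := lt_min hδ one_pos
      add := fun x hx y hy => add x hx.1 y hy.1 (hup x hx) (hup y hy)
      conj := conj
      Fone := c.Fone
      Fmul := c.Fmul
      Finv := c.Finv
      χmul := χmul
      Fχ := fun x hx hx' => Fχ x hx hx'.1 (hup x hx')
      Zc := by
        rintro z ⟨a, -, rfl⟩ x
        exact Algebra.commutes a x
      Zmem := by
        rintro z ⟨a, ha, rfl⟩ h hh h0
        exact c.conv a ha h hh h0
      path := c.path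
      seg := fun N => by
        obtain ⟨M, h1, h2, h3⟩ := c.den N
        refine ⟨M, h1, h2, c.natCast_neD h2, fun i _ => ⟨(i : K) * (M : K)⁻¹,
          O.mul_mem (natCast_mem O i) h3, ?_⟩⟩
        rw [map_mul, map_inv₀, map_natCast, map_natCast]
      diag := c.diag }

/-- The invariance under conjugation. -/
theorem conj {Hp : Set D} (w : Two τ H Hp) {P : D → E} {δ : ℝ} (hδ : 0 < δ)
    (add : ∀ x ∈ Hp, ∀ y ∈ Hp, Pn J δ x → Pn J δ y → P (x * y) = P x * P y) (X : RR T n)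
    (hX : IsUnit X) : ∃ ρ : ℝ, 0 < ρ ∧ ∃ δ' : ℝ, 0 < δ' ∧ ∀ g ∈ H,
      ‖(RingHom.pi J : D →+* RR T n) g - X‖ < ρ →
      ∀ x ∈ Nr (RingHom.pi J : D →+* RR T n) H δ', P (g * x * g⁻¹) = P x := by
  refine conj_germ c.grp w.grp w.sub (fun η hη => ?_) hδ
    (fun x hx y hy => add x hx.1 y hy.1 (pn_of_nr hx) (pn_of_nr hy)) X hX
  obtain ⟨p, hp, hpn, h1, h2⟩ := w.tw (η / (n + 1)) (by positivity)
  refine ⟨algebraMap K D p, (map_ne_zero _).2 hp, Algebra.commutes p, ?_, h1, ?_⟩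
  · refine (pi_norm_lt_iff hη).2 fun t => ?_
    refine lt_of_le_of_lt (norm_le_of_entry (c := η / (n + 1)) (by positivity)
      fun a b => ?_) ?_
    · have e : (RingHom.pi J : D →+* RR T n) (algebraMap K D p) t =
          τ t p • (1 : Matrix (Fin n) (Fin n) ℂ) := c.J_alg t p
      rw [e, Matrix.smul_apply, smul_eq_mul, norm_mul]
      refine le_trans ?_ (hpn t).le
      have h3 : ‖(1 : Matrix (Fin n) (Fin n) ℂ) a b‖ ≤ 1 := by
        rw [Matrix.one_apply]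
        split_ifs <;> simp
      calc ‖τ t p‖ * ‖(1 : Matrix (Fin n) (Fin n) ℂ) a b‖ ≤ ‖τ t p‖ * 1 :=
            mul_le_mul_of_nonneg_left h3 (norm_nonneg _)
        _ = ‖τ t p‖ := mul_one _
    · have hn : (0 : ℝ) < n + 1 := by positivity
      rw [mul_div_assoc', div_lt_iff₀ hn]
      nlinarith
  · intro g hg m hm
    rw [← map_inv₀]
    exact h2 g hg m hm

/-- **The extension.** -/
theorem exists_ext {Hp : Set D} (w : Two τ H Hp) {P χ : D → E} {δ : ℝ} (hδ : 0 < δ)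
    (add : ∀ x ∈ Hp, ∀ y ∈ Hp, Pn J δ x → Pn J δ y → P (x * y) = P x * P y)
    (χmul : ∀ x ∈ F, ∀ y ∈ F, x ∈ H → y ∈ H → χ (x * y) = χ x * χ y)
    (Fχ : ∀ x ∈ F, x ∈ H → Pn J δ x → P x = χ x) :
    ∃ (V : D → E) (δ₁ : ℝ), 0 < δ₁ ∧ (∀ x ∈ H, ∀ y ∈ H, V (x * y) = V x * V y) ∧
      ∀ x ∈ H, Pn J δ₁ x → V x = P x := by
  obtain ⟨V, δ₁, h1, h2, h3⟩ := (c.dat hδ
    (fun x hx y hy => add x (w.sub hx) y (w.sub hy)) (c.conj w hδ add) χmul Fχ).exists_ext
      (min_le_right _ _)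
  exact ⟨V, δ₁ / (n + 1), by positivity, h2, fun x hx hn => h3 x (nr_of_pn h1 hx hn)⟩

/-- **Uniqueness.** -/
theorem hom_unique {V V' : D → E} (hV : ∀ x ∈ H, ∀ y ∈ H, V (x * y) = V x * V y)
    (hV' : ∀ x ∈ H, ∀ y ∈ H, V' (x * y) = V' x * V' y) {η : ℝ} (hη : 0 < η)
    (h : ∀ x ∈ H, Pn J η x → V x = V' x) : ∀ x ∈ H, V x = V' x := by
  have d := c.dat (E := E) (P := fun _ => 1) (χ := fun _ => 1) (δ := 1) one_pos
    (fun _ _ _ _ _ _ => (mul_one 1).symm)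
    (fun _ _ => ⟨1, one_pos, 1, one_pos, fun _ _ _ _ _ => rfl⟩)
    (fun _ _ _ _ _ _ => (mul_one 1).symm) (fun _ _ _ _ => rfl)
  exact d.hom_unique hV hV' hη fun x hx => h x hx.1 (pn_of_nr hx)

end Con

end main

section all

attribute [local instance] Matrix.linftyOpNormedRing Matrix.linftyOpNormedAlgebra

variable {K D E T : Type*} [Field K] [DivisionRing D] [Algebra K D] [CommGroup E] [Fintype T]
  {n : ℕ} [NeZero n] {J : T → (D →+* Matrix (Fin n) (Fin n) ℂ)} {τ : T → (K →+* ℂ)}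
  {O : Subring K} {H F : Set D}

/-- **The extension**, the set of the places may be empty. -/
theorem Con.exists_ext_all (c : Con τ J O H F) {Hp : Set D} (w : Two τ H Hp) {P χ : D → E} {δ : ℝ}
    (hδ : 0 < δ) (add : ∀ x ∈ Hp, ∀ y ∈ Hp, Pn J δ x → Pn J δ y → P (x * y) = P x * P y)
    (χmul : ∀ x ∈ F, ∀ y ∈ F, x ∈ H → y ∈ H → χ (x * y) = χ x * χ y)
    (Fχ : ∀ x ∈ F, x ∈ H → Pn J δ x → P x = χ x) :
    ∃ (V : D → E) (δ₁ : ℝ), 0 < δ₁ ∧ (∀ x ∈ H, ∀ y ∈ H, V (x * y) = V x * V y) ∧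
      ∀ x ∈ H, Pn J δ₁ x → V x = P x := by
  cases isEmpty_or_nonempty T with
  | inl h =>
    exact ⟨P, 1, one_pos, fun x hx y hy => add x (w.sub hx) y (w.sub hy) (fun t => h.elim t)
      (fun t => h.elim t), fun _ _ _ => rfl⟩
  | inr h => exact c.exists_ext w hδ add χmul Fχ

/-- **Uniqueness**, the set of the places may be empty. -/
theorem Con.hom_unique_all (c : Con τ J O H F) {V V' : D → E}
    (hV : ∀ x ∈ H, ∀ y ∈ H, V (x * y) = V x * V y)
    (hV' : ∀ x ∈ H, ∀ y ∈ H, V' (x * y) = V' x * V' y) {η : ℝ} (hη : 0 < η)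
    (h : ∀ x ∈ H, Pn J η x → V x = V' x) : ∀ x ∈ H, V x = V' x := by
  cases isEmpty_or_nonempty T with
  | inl hT => exact fun x hx => h x hx fun t => hT.elim t
  | inr hT => exact c.hom_unique hV hV' hη h

/-- Every element is a product of elements close to one; a property of the elements close to one
which is stable under products holds for all. -/
theorem Con.induction (c : Con τ J O H F) {p : D → Prop} {η : ℝ} (hη : 0 < η)
    (h : ∀ x ∈ H, Pn J η x → p x) (hm : ∀ x ∈ H, ∀ y ∈ H, p x → p y → p (x * y)) :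
    ∀ x ∈ H, p x := by
  cases isEmpty_or_nonempty T with
  | inl hT => exact fun x hx => h x hx fun t => hT.elim t
  | inr hT =>
    intro x hx
    have d := c.dat (E := Unit) (P := fun _ => 1) (χ := fun _ => 1) (δ := 1) one_pos
      (fun _ _ _ _ _ _ => (mul_one 1).symm)
      (fun _ _ => ⟨1, one_pos, 1, one_pos, fun _ _ _ _ _ => rfl⟩)
      (fun _ _ _ _ _ _ => (mul_one 1).symm) (fun _ _ _ _ => rfl)
    obtain ⟨C, G, hC, hxC, -⟩ := d.diag x hx
    obtain ⟨L, hL, hp⟩ := d.exists_word hη hx hC hxC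
    rw [← hp]
    clear hp
    induction L with
    | nil =>
      refine h 1 c.grp.one fun t a b => ?_
      rw [map_one, sub_self, Matrix.zero_apply, norm_zero]
      exact hη
    | cons a L ih =>
      have ha := (hL a List.mem_cons_self).1
      have hL' : ∀ y ∈ L, y ∈ Nr (RingHom.pi J : D →+* RR T n) H η ∧ y ∈ C :=
        fun y hy => hL y (List.mem_cons_of_mem _ hy)
      rw [List.prod_cons]
      exact hm _ ha.1 _ (d.mem_list L fun y hy => (hL' y hy).1.1) (h a ha.1 (pn_of_nr ha)) (ih hL')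

end all

end Vale.Agent.P011.H518.Real
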