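import Mathlib

/-!
# Extension of homomorphisms defined near one

`H` is a multiplicative subset of a division ring `D`, `j` a homomorphism from `D` to a complete
normed ring and `P` is a function on `D` which is multiplicative on the elements of `H` whose image
is close to one.  If `P` is a homomorphism on the part of `H` in a commutative subset, to which all
commutative subfields can be conjugated approximately, then it extends to a homomorphism of `H`.
-/

open Filter Topology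

set_option linter.unusedSectionVars false

namespace Vale.Agent.P011.H518.Real

variable {D R E : Type*} [DivisionRing D] [NormedRing R] [CompleteSpace R] [Nontrivial R]
  [CommGroup E]

/-- A multiplicative group of nonzero elements. -/
structure Grp (H : Set D) : Prop where
  one : (1 : D) ∈ H
  mul : ∀ {x y}, x ∈ H → y ∈ H → x * y ∈ H
  inv : ∀ {x}, x ∈ H → x⁻¹ ∈ H
  ne : ∀ {x}, x ∈ H → x ≠ 0

/-- The elements of `H` close to one. -/
def Nr (j : D →+* R) (H : Set D) (δ : ℝ) : Set D := {x | x ∈ H ∧ ‖j x - 1‖ < δ}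

/-- A subring closed under inverses which contains `Z`. -/
structure Cl (Z C : Set D) : Prop where
  one : (1 : D) ∈ C
  mul : ∀ {x y}, x ∈ C → y ∈ C → x * y ∈ C
  add : ∀ {x y}, x ∈ C → y ∈ C → x + y ∈ C
  neg : ∀ {x}, x ∈ C → -x ∈ C
  inv : ∀ {x}, x ∈ C → x⁻¹ ∈ C
  sub : Z ⊆ C

/-- The points of the paths. -/
def pt (z h : D) : D := 1 + z * (h - 1)

theorem pt_mem {Z C : Set D} (hC : Cl Z C) {z h : D} (hz : z ∈ Z) (hh : h ∈ C) : pt z h ∈ C := by
  rw [pt, sub_eq_add_neg]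
  exact hC.add hC.one (hC.mul (hC.sub hz) (hC.add hh (hC.neg hC.one)))

theorem pt_zero (h : D) : pt 0 h = 1 := by rw [pt, zero_mul, add_zero]

theorem pt_one (h : D) : pt 1 h = h := by rw [pt, one_mul, add_sub_cancel]

/-! ### Inverses in the normed ring -/

section inv

variable (j : D →+* R)

theorem j_inv {x : D} (hx : x ≠ 0) : j x⁻¹ = Ring.inverse (j x) := by
  have h1 : j x * j x⁻¹ = 1 := by rw [← map_mul, mul_inv_cancel₀ hx, map_one]
  have h2 : j x⁻¹ * j x = 1 := by rw [← map_mul, inv_mul_cancel₀ hx, map_one]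
  exact (Ring.inverse_unit (⟨j x, j x⁻¹, h1, h2⟩ : Rˣ)).symm

theorem tendsto_inverse {ι : Type*} {l : Filter ι} {f : ι → R} {u : R} (hu : IsUnit u)
    (h : Tendsto f l (𝓝 u)) : Tendsto (fun i => Ring.inverse (f i)) l (𝓝 (Ring.inverse u)) := by
  obtain ⟨u, rfl⟩ := hu
  exact (NormedRing.inverse_continuousAt u).tendsto.comp h

theorem tendsto_j_inv {ι : Type*} {l : Filter ι} {f : ι → D} (hf : ∀ i, f i ≠ 0) {u : R}
    (hu : IsUnit u) (h : Tendsto (fun i => j (f i)) l (𝓝 u)) :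
    Tendsto (fun i => j (f i)⁻¹) l (𝓝 (Ring.inverse u)) := by
  have := tendsto_inverse hu h
  refine this.congr fun i => ?_
  rw [j_inv j (hf i)]

theorem eventually_near {ι : Type*} {l : Filter ι} {f : ι → D} {φ : R}
    (h : Tendsto (fun i => j (f i)) l (𝓝 φ)) {δ : ℝ} (hδ : ‖φ - 1‖ < δ) :
    ∀ᶠ i in l, ‖j (f i) - 1‖ < δ := by
  have h1 : Tendsto (fun i => ‖j (f i) - 1‖) l (𝓝 ‖φ - 1‖) := (h.sub_const 1).norm
  exact h1.eventually_lt_const hδ

end inv

/-- **The data.** -/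
structure Dat (j : D →+* R) (H F Z : Set D) (P χ : D → E) (δ : ℝ) : Prop where
  grp : Grp H
  pos : 0 < δ
  /-- the additivity close to one -/
  add : ∀ x ∈ Nr j H δ, ∀ y ∈ Nr j H δ, P (x * y) = P x * P y
  /-- the local invariance -/
  conj : ∀ X : R, IsUnit X → ∃ ρ : ℝ, 0 < ρ ∧ ∃ δ' : ℝ, 0 < δ' ∧ ∀ g ∈ H, ‖j g - X‖ < ρ →
    ∀ x ∈ Nr j H δ', P (g * x * g⁻¹) = P x
  /-- the commutative subset -/
  Fone : (1 : D) ∈ F
  Fmul : ∀ x ∈ F, ∀ y ∈ F, x * y ∈ F
  Finv : ∀ x ∈ F, x⁻¹ ∈ F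
  χmul : ∀ x ∈ F, ∀ y ∈ F, x ∈ H → y ∈ H → χ (x * y) = χ x * χ y
  Fχ : ∀ x ∈ F, x ∈ Nr j H δ → P x = χ x
  /-- the parameters are central -/
  Zc : ∀ z ∈ Z, ∀ x : D, z * x = x * z
  /-- `H` is convex with respect to the parameters -/
  Zmem : ∀ z ∈ Z, ∀ h ∈ H, 1 + z * (h - 1) ≠ 0 → 1 + z * (h - 1) ∈ H
  /-- paths -/
  path : ∀ X : R, IsUnit X → ∀ η : ℝ, 0 < η → ∃ (M : ℕ) (z : ℕ → D), (∀ i, z i ∈ Z) ∧ z 0 = 0 ∧
    z M = 1 ∧ (∀ i ≤ M, IsUnit (1 + j (z i) * (X - 1))) ∧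
    ∀ i < M, ‖Ring.inverse (1 + j (z i) * (X - 1)) * (1 + j (z (i + 1)) * (X - 1)) - 1‖ < η
  /-- segments -/
  seg : ∀ N : ℕ, ∃ M : ℕ, N ≤ M ∧ 0 < M ∧ (M : D) ≠ 0 ∧ ∀ i ≤ M, ((i : D) * (M : D)⁻¹) ∈ Z
  /-- conjugation to the commutative subset -/
  diag : ∀ h ∈ H, ∃ (C : Set D) (G : R), Cl Z C ∧ h ∈ C ∧ IsUnit G ∧ (∃ g : ℕ → D, (∀ k, g k ∈ H) ∧
    Tendsto (fun k => j (g k)) atTop (𝓝 G)) ∧ ∀ x ∈ H, x ∈ C → ∃ f : ℕ → D,
      (∀ k, f k ∈ F) ∧ (∀ k, f k ∈ H) ∧
      Tendsto (fun k => j (f k)) atTop (𝓝 (G * j x * Ring.inverse G))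

namespace Dat

variable {j : D →+* R} {H F Z : Set D} {P χ : D → E} {δ : ℝ} (d : Dat j H F Z P χ δ)

include d

theorem one_near : (1 : D) ∈ Nr j H δ := ⟨d.grp.one, by rw [map_one, sub_self, norm_zero]; exact d.pos⟩

theorem P_one : P 1 = 1 := by
  have h := d.add 1 d.one_near 1 d.one_near
  rw [mul_one] at h
  exact mul_eq_left.mp h.symm

/-- Comparison of two words. -/
theorem compare {a f : ℕ → ℕ → D} {φ : ℕ → R} (m : ℕ) (ha : ∀ i k, a i k ∈ H)
    (hf : ∀ i k, f i k ∈ H) (hφ : ∀ i, IsUnit (φ i)) (hφ1 : ∀ i < m, ‖φ i - 1‖ < δ)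
    (ta : ∀ i, Tendsto (fun k => j (a i k)) atTop (𝓝 (φ i)))
    (tf : ∀ i, Tendsto (fun k => j (f i k)) atTop (𝓝 (φ i))) :
    ∃ (A Q : ℕ → D) (w : R), (∀ k, A k = ((List.range m).map fun i => a i k).prod) ∧
      (∀ k, Q k = ((List.range m).map fun i => f i k).prod) ∧ IsUnit w ∧
      (∀ k, A k ∈ H) ∧ (∀ k, Q k ∈ H) ∧
      Tendsto (fun k => j (A k)) atTop (𝓝 w) ∧ Tendsto (fun k => j (Q k)) atTop (𝓝 w) ∧
      ∀ᶠ k in atTop, ((List.range m).map fun i => P (a i k)).prod =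
        ((List.range m).map fun i => P (f i k)).prod * P (A k * (Q k)⁻¹) := by
  induction m with
  | zero =>
    refine ⟨fun _ => 1, fun _ => 1, 1, fun k => by simp, fun k => by simp, isUnit_one,
      fun k => d.grp.one, fun k => d.grp.one, ?_, ?_, Eventually.of_forall fun k => ?_⟩
    · simp
    · simp
    · simp [d.P_one]
  | succ m ih =>
    obtain ⟨A, Q, w, hA, hQ, hw, hAH, hQH, tA, tQ, hev⟩ := ih fun i hi => hφ1 i (by omega)
    have fne : ∀ i k, f i k ≠ 0 := fun i k => d.grp.ne (hf i k)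
    have Qne : ∀ k, Q k ≠ 0 := fun k => d.grp.ne (hQH k)
    refine ⟨fun k => A k * a m k, fun k => Q k * f m k, w * φ m, fun k => ?_, fun k => ?_,
      hw.mul (hφ m), fun k => d.grp.mul (hAH k) (ha m k), fun k => d.grp.mul (hQH k) (hf m k),
      ?_, ?_, ?_⟩
    · rw [List.range_succ, List.map_append, List.prod_append, ← hA]
      simp
    · rw [List.range_succ, List.map_append, List.prod_append, ← hQ]
      simp
    · simp only [map_mul]
      exact tA.mul (ta m)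
    · simp only [map_mul]
      exact tQ.mul (tf m)
    -- the limits of the small elements
    have t1 : Tendsto (fun k => j (a m k * (f m k)⁻¹)) atTop (𝓝 1) := by
      have h := (ta m).mul (tendsto_j_inv j (fne m) (hφ m) (tf m))
      rw [Ring.mul_inverse_cancel _ (hφ m)] at h
      simpa only [map_mul] using h
    have t2 : Tendsto (fun k => j (Q k * (a m k * (f m k)⁻¹) * (Q k)⁻¹)) atTop (𝓝 1) := by
      have h := (tQ.mul t1).mul (tendsto_j_inv j Qne hw tQ)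
      rw [mul_one, Ring.mul_inverse_cancel _ hw] at h
      simpa only [map_mul] using h
    have t3 : Tendsto (fun k => j (A k * (Q k)⁻¹)) atTop (𝓝 1) := by
      have h := tA.mul (tendsto_j_inv j Qne hw tQ)
      rw [Ring.mul_inverse_cancel _ hw] at h
      simpa only [map_mul] using h
    have h0 : ‖(1 : R) - 1‖ < δ := by rw [sub_self, norm_zero]; exact d.pos
    obtain ⟨ρ, hρ, δ', hδ', hcj⟩ := d.conj w hw
    have h0' : ‖(1 : R) - 1‖ < δ' := by rw [sub_self, norm_zero]; exact hδ'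
    have h0w : ∀ᶠ k in atTop, ‖j (Q k) - w‖ < ρ := by
      have h := (tQ.sub_const w).norm
      rw [sub_self, norm_zero] at h
      exact h.eventually_lt_const hρ
    filter_upwards [hev, eventually_near j t1 h0, eventually_near j t2 h0,
      eventually_near j t3 h0, eventually_near j (tf m) (hφ1 m (by omega)), h0w,
      eventually_near j t1 h0']
      with k e1 e2 e3 e4 e5 e6 e7
    have m1 : a m k * (f m k)⁻¹ ∈ Nr j H δ := ⟨d.grp.mul (ha m k) (d.grp.inv (hf m k)), e2⟩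
    have m2 : Q k * (a m k * (f m k)⁻¹) * (Q k)⁻¹ ∈ Nr j H δ :=
      ⟨d.grp.mul (d.grp.mul (hQH k) m1.1) (d.grp.inv (hQH k)), e3⟩
    have m3 : A k * (Q k)⁻¹ ∈ Nr j H δ := ⟨d.grp.mul (hAH k) (d.grp.inv (hQH k)), e4⟩
    have m4 : f m k ∈ Nr j H δ := ⟨hf m k, e5⟩
    have h1 : P (a m k) = P (a m k * (f m k)⁻¹) * P (f m k) := by
      rw [← d.add _ m1 _ m4, mul_assoc, inv_mul_cancel₀ (fne m k), mul_one]
    have h2 : P (Q k * (a m k * (f m k)⁻¹) * (Q k)⁻¹) = P (a m k * (f m k)⁻¹) :=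
      hcj _ (hQH k) e6 _ ⟨m1.1, e7⟩
    have h3 : A k * a m k * (Q k * f m k)⁻¹ =
        (A k * (Q k)⁻¹) * (Q k * (a m k * (f m k)⁻¹) * (Q k)⁻¹) := by
      rw [mul_inv_rev]
      calc A k * a m k * ((f m k)⁻¹ * (Q k)⁻¹)
          = A k * ((Q k)⁻¹ * Q k) * (a m k * (f m k)⁻¹) * (Q k)⁻¹ := by
            rw [inv_mul_cancel₀ (Qne k), mul_one]
            simp only [mul_assoc]
        _ = _ := by simp only [mul_assoc]
    rw [List.range_succ, List.map_append, List.prod_append, List.map_append, List.prod_append]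
    simp only [List.map_cons, List.map_nil, List.prod_cons, List.prod_nil, mul_one]
    rw [h3, d.add _ m3 _ m2, h2, e1, h1]
    ac_rfl

theorem inv_near : ∃ δ₁ : ℝ, 0 < δ₁ ∧ δ₁ ≤ δ ∧ ∀ x ∈ Nr j H δ₁, x⁻¹ ∈ Nr j H δ := by
  have h1 : Tendsto (fun u : R => ‖Ring.inverse u - 1‖) (𝓝 1) (𝓝 0) := by
    have h := tendsto_inverse (R := R) isUnit_one (tendsto_id (α := R) (x := 𝓝 1))
    rw [Ring.inverse_one] at h
    have h2 := (h.sub_const 1).norm
    rwa [sub_self, norm_zero] at h2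
  obtain ⟨ρ, hρ, hb⟩ := Metric.eventually_nhds_iff.mp (h1.eventually_lt_const d.pos)
  refine ⟨min ρ δ, lt_min hρ d.pos, min_le_right _ _, fun x hx => ⟨d.grp.inv hx.1, ?_⟩⟩
  have h3 := hb (y := j x) (by rw [dist_eq_norm]; exact hx.2.trans_le (min_le_left _ _))
  rwa [← j_inv j (d.grp.ne hx.1)] at h3

theorem P_inv {x : D} (hx : x ∈ Nr j H δ) (hx' : x⁻¹ ∈ Nr j H δ) : P x⁻¹ = (P x)⁻¹ := by
  have h := d.add _ hx' _ hx
  rw [inv_mul_cancel₀ (d.grp.ne hx.1), d.P_one] at h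
  exact eq_inv_of_mul_eq_one_left h.symm

theorem χ_one : χ 1 = 1 := by
  have h := d.χmul 1 d.Fone 1 d.Fone d.grp.one d.grp.one
  rw [mul_one] at h
  exact mul_eq_left.mp h.symm

theorem χ_list (L : List D) (hL : ∀ x ∈ L, x ∈ F ∧ x ∈ H) :
    L.prod ∈ F ∧ L.prod ∈ H ∧ χ L.prod = (L.map χ).prod := by
  induction L with
  | nil => exact ⟨d.Fone, d.grp.one, by simp [d.χ_one]⟩
  | cons x L ih =>
    obtain ⟨h1, h2, h3⟩ := ih fun y hy => hL y (List.mem_cons_of_mem _ hy)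
    obtain ⟨h4, h5⟩ := hL x List.mem_cons_self
    rw [List.prod_cons, List.map_cons, List.prod_cons, ← h3]
    exact ⟨d.Fmul _ h4 _ h1, d.grp.mul h5 h2, d.χmul _ h4 _ h1 h5 h2⟩

theorem mem_list (L : List D) (hL : ∀ x ∈ L, x ∈ H) : L.prod ∈ H := by
  induction L with
  | nil => exact d.grp.one
  | cons x L ih =>
    rw [List.prod_cons]
    exact d.grp.mul (hL x List.mem_cons_self) (ih fun y hy => hL y (List.mem_cons_of_mem _ hy))

/-- Closed words of elements which stay close to one after the conjugation. -/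
theorem closed_small {G : R} (hG : IsUnit G) {g : ℕ → D} (hg : ∀ k, g k ∈ H)
    (tg : Tendsto (fun k => j (g k)) atTop (𝓝 G)) {C : Set D}
    (hf : ∀ x ∈ H, x ∈ C → ∃ f : ℕ → D, (∀ k, f k ∈ F) ∧ (∀ k, f k ∈ H) ∧
      Tendsto (fun k => j (f k)) atTop (𝓝 (G * j x * Ring.inverse G))) {ρ δ' : ℝ} (hρ : 0 < ρ)
    (hcj : ∀ g ∈ H, ‖j g - G‖ < ρ → ∀ x ∈ Nr j H δ', P (g * x * g⁻¹) = P x) (m : ℕ) (x : ℕ → D)
    (hx : ∀ i, x i ∈ Nr j H δ ∧ x i ∈ C) (hx' : ∀ i, x i ∈ Nr j H δ')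
    (hs : ∀ i, ‖G * j (x i) * Ring.inverse G - 1‖ < δ)
    (hp : ((List.range m).map x).prod = 1) : ((List.range m).map fun i => P (x i)).prod = 1 := by
  choose f hfF hfH tf using fun i => hf (x i) (hx i).1.1 (hx i).2
  have gne : ∀ k, g k ≠ 0 := fun k => d.grp.ne (hg k)
  have xu : ∀ i, IsUnit (j (x i)) := fun i =>
    (IsUnit.mk0 _ (d.grp.ne (hx i).1.1)).map j
  have iu : IsUnit (Ring.inverse G) := by
    obtain ⟨u, rfl⟩ := hG
    rw [Ring.inverse_unit]
    exact Units.isUnit _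
  have ta : ∀ i, Tendsto (fun k => j (g k * x i * (g k)⁻¹)) atTop
      (𝓝 (G * j (x i) * Ring.inverse G)) := by
    intro i
    have h1 := (tg.mul_const (j (x i))).mul (tendsto_j_inv j gne hG tg)
    simpa only [map_mul] using h1
  obtain ⟨A, Q, w, hA, hQ, hw, hAH, hQH, tA, tQ, hev⟩ := d.compare
    (a := fun i k => g k * x i * (g k)⁻¹) (f := f) (φ := fun i => G * j (x i) * Ring.inverse G) m
    (fun i k => d.grp.mul (d.grp.mul (hg k) (hx i).1.1) (d.grp.inv (hg k))) hfH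
    (fun i => (hG.mul (xu i)).mul iu) (fun i _ => hs i) ta tf
  have hconj : ∀ (L : List ℕ) (k : ℕ), (L.map fun i => g k * x i * (g k)⁻¹).prod =
      g k * (L.map x).prod * (g k)⁻¹ := by
    intro L k
    induction L with
    | nil => simp [gne k]
    | cons i L ih =>
      rw [List.map_cons, List.prod_cons, ih, List.map_cons, List.prod_cons]
      calc g k * x i * (g k)⁻¹ * (g k * (L.map x).prod * (g k)⁻¹)
          = g k * x i * ((g k)⁻¹ * g k) * (L.map x).prod * (g k)⁻¹ := by simp only [mul_assoc]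
        _ = _ := by rw [inv_mul_cancel₀ (gne k), mul_one]; simp only [mul_assoc]
  have hA1 : ∀ k, A k = 1 := fun k => by
    rw [hA, hconj, hp, mul_one, mul_inv_cancel₀ (gne k)]
  have hw1 : w = 1 := by
    refine tendsto_nhds_unique tA ?_
    simp only [hA1, map_one]
    exact tendsto_const_nhds
  rw [hw1] at tQ
  have Qne : ∀ k, Q k ≠ 0 := fun k => d.grp.ne (hQH k)
  have tQi : Tendsto (fun k => j (Q k)⁻¹) atTop (𝓝 1) := by
    have h1 := tendsto_j_inv j Qne isUnit_one tQ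
    rwa [Ring.inverse_one] at h1
  have h0 : ‖(1 : R) - 1‖ < δ := by rw [sub_self, norm_zero]; exact d.pos
  have e1 : ∀ᶠ k in atTop, ∀ i ∈ Finset.range m, ‖j (f i k) - 1‖ < δ :=
    (Finset.eventually_all _).mpr fun i _ => eventually_near j (tf i) (hs i)
  have e2 : ∀ᶠ k in atTop, ‖j (g k) - G‖ < ρ := by
    have h := (tg.sub_const G).norm
    rw [sub_self, norm_zero] at h
    exact h.eventually_lt_const hρ
  obtain ⟨k, h1, h2, h3, h4⟩ := (hev.and (e1.and (e2.and (eventually_near j tQi h0)))).exists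
  have h5 : ((List.range m).map fun i => P (g k * x i * (g k)⁻¹)) =
      ((List.range m).map fun i => P (x i)) := by
    refine List.map_congr_left fun i hi => ?_
    exact hcj _ (hg k) h3 _ (hx' i)
  have h6 : ((List.range m).map fun i => P (f i k)) =
      (((List.range m).map fun i => f i k).map χ) := by
    rw [List.map_map]
    refine List.map_congr_left fun i hi => ?_
    exact d.Fχ _ (hfF i k) ⟨hfH i k, h2 i (Finset.mem_range.mpr (List.mem_range.mp hi))⟩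
  obtain ⟨h7, h8, h9⟩ := d.χ_list ((List.range m).map fun i => f i k) (by
    intro y hy
    obtain ⟨i, -, rfl⟩ := List.mem_map.mp hy
    exact ⟨hfF i k, hfH i k⟩)
  rw [← hQ k] at h7 h9
  rw [h5, h6, ← h9, hA1, one_mul, d.Fχ _ (d.Finv _ h7) ⟨d.grp.inv (hQH k), h4⟩,
    ← d.χmul _ h7 _ (d.Finv _ h7) (hQH k) (d.grp.inv (hQH k)), mul_inv_cancel₀ (Qne k),
    d.χ_one] at h1
  exact h1

end Dat

end Vale.Agent.P011.H518.Real
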