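import Vale.Agent.P011.H518.Real.Word

/-!
# The extension
-/

open Filter Topology

set_option linter.unusedSectionVars false

namespace Vale.Agent.P011.H518.Real

variable {D R E : Type*} [DivisionRing D] [NormedRing R] [CompleteSpace R] [Nontrivial R]
  [NormedAlgebra ℝ R] [CommGroup E]

namespace Dat

variable {j : D →+* R} {H F Z : Set D} {P χ : D → E} {δ : ℝ} (d : Dat j H F Z P χ δ)

include d

/-- Two words in the same commutative subset have the same value. -/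
theorem word_unique (hδ : δ ≤ 1) {δ₁ : ℝ} (hinv : ∀ x ∈ Nr j H δ₁, x⁻¹ ∈ Nr j H δ) (h1δ : δ₁ ≤ δ)
    {G : R} (hG : IsUnit G) {g : ℕ → D} (hg : ∀ k, g k ∈ H)
    (tg : Tendsto (fun k => j (g k)) atTop (𝓝 G)) {C : Set D} (hC : Cl Z C)
    (hf : ∀ x ∈ H, x ∈ C → ∃ f : ℕ → D, (∀ k, f k ∈ F) ∧ (∀ k, f k ∈ H) ∧
      Tendsto (fun k => j (f k)) atTop (𝓝 (G * j x * Ring.inverse G))) (L L' : List D)
    (hL : ∀ x ∈ L, x ∈ Nr j H δ₁ ∧ x ∈ C) (hL' : ∀ x ∈ L', x ∈ Nr j H δ₁ ∧ x ∈ C)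
    (hp : L.prod = L'.prod) : (L.map P).prod = (L'.map P).prod := by
  have hup : ∀ x ∈ Nr j H δ₁, x ∈ Nr j H δ := fun x hx => ⟨hx.1, hx.2.trans_le h1δ⟩
  have hp0 : L'.prod ≠ 0 := d.grp.ne (d.mem_list L' fun x hx => (hL' x hx).1.1)
  have key : ∀ M : List D, (∀ x ∈ M, x ∈ Nr j H δ₁ ∧ x ∈ C) →
      (M.reverse.map fun x => x⁻¹).prod = M.prod⁻¹ ∧
      ((M.reverse.map fun x => x⁻¹).map P).prod = ((M.map P).prod)⁻¹ := by
    intro M
    induction M with
    | nil => intro _; simp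
    | cons x M ih =>
      intro hM
      obtain ⟨h1, h2⟩ := ih fun y hy => hM y (List.mem_cons_of_mem _ hy)
      have hx := hM x List.mem_cons_self
      rw [List.reverse_cons, List.map_append, List.prod_append, List.map_append,
        List.prod_append, h1, h2]
      simp only [List.map_cons, List.map_nil, List.prod_cons, List.prod_nil, mul_one]
      rw [d.P_inv (hup x hx.1) (hinv x hx.1), mul_inv_rev, mul_inv_rev]
      exact ⟨rfl, rfl⟩
  obtain ⟨h1, h2⟩ := key L' hL'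
  have h3 := d.closed hδ hG hg tg hC hf (L ++ L'.reverse.map fun x => x⁻¹) (fun x hx => by
    rcases List.mem_append.mp hx with hx | hx
    · exact ⟨hup x (hL x hx).1, (hL x hx).2⟩
    · obtain ⟨y, hy, rfl⟩ := List.mem_map.mp hx
      have hy' := hL' y (List.mem_reverse.mp hy)
      exact ⟨hinv y hy'.1, hC.inv hy'.2⟩) (by
    rw [List.prod_append, h1, hp, mul_inv_cancel₀ hp0])
  rw [List.map_append, List.prod_append, h2, mul_inv_eq_one] at h3
  exact h3

/-- The path of an element of `H`. -/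
theorem exists_word {η : ℝ} (hη : 0 < η) {h : D} (hh : h ∈ H) {C : Set D} (hC : Cl Z C)
    (hhC : h ∈ C) : ∃ L : List D, (∀ x ∈ L, x ∈ Nr j H η ∧ x ∈ C) ∧ L.prod = h := by
  obtain ⟨M, z, hz, hz0, hzM, hu, hs⟩ := d.path (j h) ((IsUnit.mk0 h (d.grp.ne hh)).map j) η hη
  have hpH : ∀ i ≤ M, pt (z i) h ∈ H := fun i hi => d.pt_H (hz i) hh (hu i hi)
  refine ⟨(List.range M).map fun i => (pt (z i) h)⁻¹ * pt (z (i + 1)) h, fun x hx => ?_, ?_⟩
  · obtain ⟨i, hi, rfl⟩ := List.mem_map.mp hx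
    have hi' : i < M := List.mem_range.mp hi
    refine ⟨⟨d.grp.mul (d.grp.inv (hpH i hi'.le)) (hpH (i + 1) hi'), ?_⟩,
      hC.mul (hC.inv (pt_mem hC (hz i) hhC)) (pt_mem hC (hz (i + 1)) hhC)⟩
    rw [map_mul, j_inv j (d.grp.ne (hpH i hi'.le)), j_pt, j_pt]
    exact hs i hi'
  · have key : ∀ m ≤ M, ((List.range m).map fun i => (pt (z i) h)⁻¹ * pt (z (i + 1)) h).prod =
        pt (z m) h := by
      intro m
      induction m with
      | zero => intro _; simp [hz0, pt_zero]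
      | succ m ih =>
        intro hm
        rw [List.range_succ, List.map_append, List.prod_append, ih (by omega)]
        simp only [List.map_cons, List.map_nil, List.prod_cons, List.prod_nil, mul_one]
        exact mul_inv_cancel_left₀ (d.grp.ne (hpH m (by omega))) _
    rw [key M le_rfl, hzM, pt_one]

/-- **The function `V`**: values of the paths, with local comparison. -/
theorem exists_V (hδ : δ ≤ 1) : ∃ (V : D → E) (δ₁ : ℝ), 0 < δ₁ ∧ δ₁ ≤ δ ∧ V 1 = 1 ∧
    ∀ X : R, IsUnit X → ∃ ρ : ℝ, 0 < ρ ∧ ∀ h ∈ H, ∀ h' ∈ H, ‖j h - X‖ < ρ → ‖j h' - X‖ < ρ →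
      V h' = V h * P (h⁻¹ * h') := by
  classical
  obtain ⟨δ₁, h1pos, h1δ, hinv⟩ := d.inv_near
  have hup : ∀ x ∈ Nr j H δ₁, x ∈ Nr j H δ := fun x hx => ⟨hx.1, hx.2.trans_le h1δ⟩
  -- the function
  have hex : ∀ h : D, h ∈ H → ∃ e : E, ∃ (C : Set D) (G : R), Cl Z C ∧ h ∈ C ∧ IsUnit G ∧
      (∃ g : ℕ → D, (∀ k, g k ∈ H) ∧ Tendsto (fun k => j (g k)) atTop (𝓝 G)) ∧
      (∀ x ∈ H, x ∈ C → ∃ f : ℕ → D, (∀ k, f k ∈ F) ∧ (∀ k, f k ∈ H) ∧
        Tendsto (fun k => j (f k)) atTop (𝓝 (G * j x * Ring.inverse G))) ∧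
      ∀ L : List D, (∀ x ∈ L, x ∈ Nr j H δ₁ ∧ x ∈ C) → L.prod = h → (L.map P).prod = e := by
    intro h hh
    obtain ⟨C, G, hC, hhC, hG, ⟨g, hg, tg⟩, hf⟩ := d.diag h hh
    obtain ⟨L, hL, hp⟩ := d.exists_word h1pos hh hC hhC
    exact ⟨(L.map P).prod, C, G, hC, hhC, hG, ⟨g, hg, tg⟩, hf, fun L' hL' hp' =>
      d.word_unique hδ hinv h1δ hG hg tg hC hf L' L hL' hL (hp'.trans hp.symm)⟩
  choose! V hV using hex
  have hV1 : V 1 = 1 := by
    obtain ⟨C, G, hC, hhC, hG, -, -, hval⟩ := hV 1 d.grp.one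
    have h := hval [] (by simp) (by simp)
    rw [List.map_nil, List.prod_nil] at h
    exact h.symm
  refine ⟨V, δ₁, h1pos, h1δ, hV1, fun X hX => ?_⟩
  obtain ⟨M, z, hz, hz0, hzM, hu, hs⟩ := d.path X hX δ₁ h1pos
  -- continuity
  have hfst : Tendsto (fun p : R × R => p.1) (𝓝 (X, X)) (𝓝 X) := continuous_fst.tendsto _
  have hsnd : Tendsto (fun p : R × R => p.2) (𝓝 (X, X)) (𝓝 X) := continuous_snd.tendsto _
  have tp : ∀ (i : ℕ) (f : R × R → R), Tendsto f (𝓝 (X, X)) (𝓝 X) →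
      Tendsto (fun p => 1 + j (z i) * (f p - 1)) (𝓝 (X, X)) (𝓝 (1 + j (z i) * (X - 1))) :=
    fun i f hf => ((hf.sub_const 1).const_mul _).const_add 1
  have c0 : ∀ (f : R × R → R), Tendsto f (𝓝 (X, X)) (𝓝 X) →
      ∀ᶠ p in 𝓝 (X, X), ∀ i ∈ Finset.range (M + 1), IsUnit (1 + j (z i) * (f p - 1)) :=
    fun f hf => (Finset.eventually_all _).mpr fun i hi =>
      (tp i f hf).eventually (Units.isOpen.mem_nhds (hu i (by
        have := Finset.mem_range.mp hi; omega)))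
  have c1 : ∀ᶠ p in 𝓝 (X, X), ∀ i ∈ Finset.range (M + 1),
      ‖Ring.inverse (1 + j (z i) * (p.1 - 1)) * (1 + j (z i) * (p.2 - 1)) - 1‖ < δ₁ := by
    refine (Finset.eventually_all _).mpr fun i hi => ?_
    have hi' : i ≤ M := by
      have := Finset.mem_range.mp hi
      omega
    have h1 := (tendsto_inverse (hu i hi') (tp i _ hfst)).mul (tp i _ hsnd)
    rw [Ring.inverse_mul_cancel _ (hu i hi')] at h1
    have h2 := (h1.sub_const 1).norm
    rw [sub_self, norm_zero] at h2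
    exact h2.eventually_lt_const h1pos
  have c2 : ∀ (f : R × R → R), Tendsto f (𝓝 (X, X)) (𝓝 X) →
      ∀ᶠ p in 𝓝 (X, X), ∀ i ∈ Finset.range M,
      ‖Ring.inverse (1 + j (z i) * (f p - 1)) * (1 + j (z (i + 1)) * (f p - 1)) - 1‖ < δ₁ := by
    intro f hf
    refine (Finset.eventually_all _).mpr fun i hi => ?_
    have hi' : i < M := Finset.mem_range.mp hi
    have h1 := (tendsto_inverse (hu i hi'.le) (tp i f hf)).mul (tp (i + 1) f hf)
    exact ((h1.sub_const 1).norm).eventually_lt_const (hs i hi')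
  obtain ⟨ρ, hρ, hb⟩ := Metric.eventually_nhds_iff.mp
    ((c0 _ hfst).and ((c0 _ hsnd).and (c1.and ((c2 _ hfst).and (c2 _ hsnd)))))
  refine ⟨ρ, hρ, fun h hh h' hh' hn hn' => ?_⟩
  obtain ⟨u1, u2, a1, a2, a3⟩ := hb (y := (j h, j h')) (by
    rw [Prod.dist_eq, dist_eq_norm, dist_eq_norm]
    exact max_lt hn hn')
  have hpH : ∀ i ≤ M, pt (z i) h ∈ H := fun i hi =>
    d.pt_H (hz i) hh (u1 i (Finset.mem_range.mpr (by omega)))
  have hpH' : ∀ i ≤ M, pt (z i) h' ∈ H := fun i hi =>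
    d.pt_H (hz i) hh' (u2 i (Finset.mem_range.mpr (by omega)))
  have b1 : ∀ i ≤ M, (pt (z i) h)⁻¹ * pt (z i) h' ∈ Nr j H δ₁ := by
    intro i hi
    refine ⟨d.grp.mul (d.grp.inv (hpH i hi)) (hpH' i hi), ?_⟩
    rw [map_mul, j_inv j (d.grp.ne (hpH i hi)), j_pt, j_pt]
    exact a1 i (Finset.mem_range.mpr (by omega))
  have b2 : ∀ i < M, (pt (z i) h)⁻¹ * pt (z (i + 1)) h ∈ Nr j H δ₁ := by
    intro i hi
    refine ⟨d.grp.mul (d.grp.inv (hpH i hi.le)) (hpH (i + 1) hi), ?_⟩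
    rw [map_mul, j_inv j (d.grp.ne (hpH i hi.le)), j_pt, j_pt]
    exact a2 i (Finset.mem_range.mpr hi)
  have b3 : ∀ i < M, (pt (z i) h')⁻¹ * pt (z (i + 1)) h' ∈ Nr j H δ₁ := by
    intro i hi
    refine ⟨d.grp.mul (d.grp.inv (hpH' i hi.le)) (hpH' (i + 1) hi), ?_⟩
    rw [map_mul, j_inv j (d.grp.ne (hpH' i hi.le)), j_pt, j_pt]
    exact a3 i (Finset.mem_range.mpr hi)
  -- values along the paths
  have hprod : ∀ g : D, (∀ i ≤ M, pt (z i) g ∈ H) → ∀ m ≤ M,
      ((List.range m).map fun i => (pt (z i) g)⁻¹ * pt (z (i + 1)) g).prod = pt (z m) g := by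
    intro g hg m
    induction m with
    | zero => intro _; simp [hz0, pt_zero]
    | succ m ih =>
      intro hm
      rw [List.range_succ, List.map_append, List.prod_append, ih (by omega)]
      simp only [List.map_cons, List.map_nil, List.prod_cons, List.prod_nil, mul_one]
      exact mul_inv_cancel_left₀ (d.grp.ne (hg m (by omega))) _
  have hval : ∀ g ∈ H, (∀ i ≤ M, pt (z i) g ∈ H) →
      (∀ i < M, (pt (z i) g)⁻¹ * pt (z (i + 1)) g ∈ Nr j H δ₁) →
      (((List.range M).map fun i => (pt (z i) g)⁻¹ * pt (z (i + 1)) g).map P).prod = V g := by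
    intro g hg hgH hgn
    obtain ⟨C, G, hC, hhC, hG, -, -, hvl⟩ := hV g hg
    refine hvl _ (fun x hx => ?_) (by rw [hprod g hgH M le_rfl, hzM, pt_one])
    obtain ⟨i, hi, rfl⟩ := List.mem_map.mp hx
    have hi' : i < M := List.mem_range.mp hi
    exact ⟨hgn i hi', hC.mul (hC.inv (pt_mem hC (hz i) hhC)) (pt_mem hC (hz (i + 1)) hhC)⟩
  have hcmp : ∀ m ≤ M,
      (((List.range m).map fun i => (pt (z i) h')⁻¹ * pt (z (i + 1)) h').map P).prod =
      (((List.range m).map fun i => (pt (z i) h)⁻¹ * pt (z (i + 1)) h).map P).prod *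
        P ((pt (z m) h)⁻¹ * pt (z m) h') := by
    intro m
    induction m with
    | zero =>
      intro _
      simp [hz0, pt_zero, d.P_one]
    | succ m ih =>
      intro hm
      have h1 := ih (by omega)
      have hm' : m < M := by omega
      have e1 : ((pt (z m) h)⁻¹ * pt (z m) h') * ((pt (z m) h')⁻¹ * pt (z (m + 1)) h') =
          ((pt (z m) h)⁻¹ * pt (z (m + 1)) h) * ((pt (z (m + 1)) h)⁻¹ * pt (z (m + 1)) h') := by
        rw [mul_assoc, mul_inv_cancel_left₀ (d.grp.ne (hpH' m hm'.le)), mul_assoc,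
          mul_inv_cancel_left₀ (d.grp.ne (hpH (m + 1) hm))]
      have e2 := congrArg P e1
      rw [d.add _ (hup _ (b1 m hm'.le)) _ (hup _ (b3 m hm')),
        d.add _ (hup _ (b2 m hm')) _ (hup _ (b1 (m + 1) hm))] at e2
      rw [List.range_succ, List.map_append, List.map_append, List.prod_append,
        List.map_append, List.map_append, List.prod_append, h1]
      simp only [List.map_cons, List.map_nil, List.prod_cons, List.prod_nil, mul_one]
      rw [mul_assoc, e2, ← mul_assoc]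
  have h1 := hcmp M le_rfl
  rw [hval h' hh' hpH' b3, hval h hh hpH b2, hzM, pt_one, pt_one] at h1
  exact h1

/-- **The extension.** -/
theorem exists_ext (hδ : δ ≤ 1) : ∃ (V : D → E) (δ₁ : ℝ), 0 < δ₁ ∧
    (∀ x ∈ H, ∀ y ∈ H, V (x * y) = V x * V y) ∧ ∀ x ∈ Nr j H δ₁, V x = P x := by
  obtain ⟨V, δ₁, h1pos, h1δ, hV1, hloc⟩ := d.exists_V hδ
  have key : ∀ h ∈ H, ∀ x ∈ Nr j H δ, V (h * x) = V h * P x := by
    intro h hh x hx
    set p : ℝ → R := fun t => 1 + t • (j x - 1) with hp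
    have hcp : Continuous p := continuous_const.add (continuous_id.smul continuous_const)
    have hu : ∀ t ∈ Set.Icc (0 : ℝ) 1, IsUnit (p t) := by
      intro t ht
      have h3 : ‖(1 : R) - p t‖ < 1 := by
        have : (1 : R) - p t = -(t • (j x - 1)) := by rw [hp]; simp
        rw [this, norm_neg]
        calc ‖t • (j x - 1)‖ ≤ ‖t‖ * ‖j x - 1‖ := norm_smul_le _ _
          _ ≤ 1 * ‖j x - 1‖ := by
              refine mul_le_mul_of_nonneg_right ?_ (norm_nonneg _)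
              rw [Real.norm_of_nonneg ht.1]
              exact ht.2
          _ < 1 := by rw [one_mul]; exact hx.2.trans_le hδ
      have h4 := isUnit_one_sub_of_norm_lt_one h3
      rwa [sub_sub_cancel] at h4
    have hju : IsUnit (j h) := (IsUnit.mk0 h (d.grp.ne hh)).map j
    obtain ⟨ρ₁, hρ₁, hq⟩ := path_unif hcp.continuousOn hu d.pos
    -- the covering
    have hex : ∀ t : Set.Icc (0 : ℝ) 1, ∃ ρ : ℝ, 0 < ρ ∧ ∀ g ∈ H, ∀ g' ∈ H,
        ‖j g - j h * p t‖ < ρ → ‖j g' - j h * p t‖ < ρ → V g' = V g * P (g⁻¹ * g') := fun t =>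
      hloc (j h * p t) (hju.mul (hu t t.2))
    choose r hr hr' using hex
    obtain ⟨ρ₂, hρ₂, hleb⟩ := lebesgue_number_lemma_of_metric (isCompact_Icc (a := (0 : ℝ)) (b := 1))
      (c := fun t : Set.Icc (0 : ℝ) 1 => {s : ℝ | ‖j h * p s - j h * p t‖ < r t})
      (fun t => isOpen_lt ((continuous_const.mul hcp).sub continuous_const).norm continuous_const)
      (fun t ht => Set.mem_iUnion.mpr ⟨⟨t, ht⟩, by
        change ‖j h * p t - j h * p t‖ < r ⟨t, ht⟩
        rw [sub_self, norm_zero]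
        exact hr _⟩)
    obtain ⟨N, hN⟩ := exists_nat_gt (1 / min ρ₁ ρ₂)
    obtain ⟨M, hNM, hM0, hM, hz⟩ := d.seg N
    have hMr : (0 : ℝ) < M := by exact_mod_cast hM0
    have hM1 : 1 / (M : ℝ) < min ρ₁ ρ₂ := by
      have h3 : (N : ℝ) ≤ M := by exact_mod_cast hNM
      rw [div_lt_iff₀ (lt_min hρ₁ hρ₂)] at hN
      rw [div_lt_iff₀ hMr]
      have := lt_min hρ₁ hρ₂
      nlinarith
    set q : ℕ → D := fun i => pt ((i : D) * (M : D)⁻¹) x with hqd
    have hpt : ∀ i ≤ M, q i ∈ Nr j H δ ∧ j (q i) = p ((i : ℝ) / M) := fun i hi =>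
      d.seg_pt hδ hx hM0 hM hz hi
    have hq0 : q 0 = 1 := by rw [hqd]; simp [pt_zero]
    have hqM : q M = x := by rw [hqd]; simp [mul_inv_cancel₀ hM, pt_one]
    have hne : ∀ i ≤ M, q i ≠ 0 := fun i hi => d.grp.ne (hpt i hi).1.1
    have hmem : ∀ i ≤ M, (i : ℝ) / M ∈ Set.Icc (0 : ℝ) 1 := fun i hi =>
      ⟨by positivity, by rw [div_le_one hMr]; exact_mod_cast hi⟩
    have hdiff : ∀ i : ℕ, |(i : ℝ) / M - ((i + 1 : ℕ) : ℝ) / M| = 1 / M := by
      intro i
      have h2 : (i : ℝ) / M - ((i + 1 : ℕ) : ℝ) / M = -(1 / M) := by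
        push_cast
        field_simp
        ring
      rw [h2, abs_neg, abs_of_pos (by positivity)]
    have hstep : ∀ i < M, (q i)⁻¹ * q (i + 1) ∈ Nr j H δ := by
      intro i hi
      have h2 := hq _ (hmem i hi.le) _ (hmem (i + 1) hi)
        (by rw [hdiff]; exact hM1.trans_le (min_le_left _ _))
      rw [← (hpt i hi.le).2, ← (hpt (i + 1) hi).2, ← j_inv j (hne i hi.le), ← map_mul] at h2
      exact ⟨d.grp.mul (d.grp.inv (hpt i hi.le).1.1) (hpt (i + 1) hi).1.1, h2⟩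
    have main : ∀ i ≤ M, V (h * q i) = V h * P (q i) := by
      intro i
      induction i with
      | zero => intro _; rw [hq0, mul_one, d.P_one, mul_one]
      | succ i ih =>
        intro hi
        have hi' : i < M := by omega
        obtain ⟨t, ht⟩ := hleb _ (hmem i hi'.le)
        have m1 : (i : ℝ) / M ∈ {s : ℝ | ‖j h * p s - j h * p t‖ < r t} :=
          ht (Metric.mem_ball_self hρ₂)
        have m2 : ((i + 1 : ℕ) : ℝ) / M ∈ {s : ℝ | ‖j h * p s - j h * p t‖ < r t} :=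
          ht (by
            rw [Metric.mem_ball, Real.dist_eq, abs_sub_comm, hdiff]
            exact hM1.trans_le (min_le_right _ _))
        have e1 := hr' t (h * q i) (d.grp.mul hh (hpt i hi'.le).1.1) (h * q (i + 1))
          (d.grp.mul hh (hpt (i + 1) hi).1.1)
          (by rw [map_mul, (hpt i hi'.le).2]; exact m1)
          (by rw [map_mul, (hpt (i + 1) hi).2]; exact m2)
        have e2 : (h * q i)⁻¹ * (h * q (i + 1)) = (q i)⁻¹ * q (i + 1) := by
          rw [mul_inv_rev, mul_assoc, inv_mul_cancel_left₀ (d.grp.ne hh)]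
        rw [e1, e2, ih hi'.le, mul_assoc, ← d.add _ (hpt i hi'.le).1 _ (hstep i hi'),
          mul_inv_cancel_left₀ (hne i hi'.le)]
    have h3 := main M le_rfl
    rwa [hqM] at h3
  refine ⟨V, δ, d.pos, ?_, fun x hx => ?_⟩
  · intro x hx y hy
    obtain ⟨C, G, hC, hyC, -⟩ := d.diag y hy
    obtain ⟨L, hL, hp⟩ := d.exists_word d.pos hy hC hyC
    have h4 : ∀ (L : List D), (∀ x ∈ L, x ∈ Nr j H δ ∧ x ∈ C) → ∀ g ∈ H,
        V (g * L.prod) = V g * (L.map P).prod := by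
      intro L
      induction L with
      | nil => intro _ g _; simp
      | cons a L ih =>
        intro hL g hg
        have ha := (hL a List.mem_cons_self).1
        rw [List.prod_cons, List.map_cons, List.prod_cons, ← mul_assoc,
          ih (fun y hy => hL y (List.mem_cons_of_mem _ hy)) _ (d.grp.mul hg ha.1),
          key g hg a ha, mul_assoc]
    have h5 := h4 L hL 1 d.grp.one
    rw [one_mul, hV1, one_mul, hp] at h5
    rw [← hp, h4 L hL x hx, hp, h5]
  · have h4 := key 1 d.grp.one x hx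
    rwa [one_mul, hV1, one_mul] at h4

/-- Two homomorphisms which agree near one agree. -/
theorem hom_unique {V V' : D → E} (hV : ∀ x ∈ H, ∀ y ∈ H, V (x * y) = V x * V y)
    (hV' : ∀ x ∈ H, ∀ y ∈ H, V' (x * y) = V' x * V' y) {η : ℝ} (hη : 0 < η)
    (h : ∀ x ∈ Nr j H η, V x = V' x) : ∀ x ∈ H, V x = V' x := by
  intro x hx
  obtain ⟨C, G, hC, hxC, -⟩ := d.diag x hx
  obtain ⟨L, hL, hp⟩ := d.exists_word hη hx hC hxC
  rw [← hp]
  clear hp
  induction L with
  | nil =>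
    exact h 1 ⟨d.grp.one, by rw [map_one, sub_self, norm_zero]; exact hη⟩
  | cons a L ih =>
    have ha := (hL a List.mem_cons_self).1
    have hL' : ∀ y ∈ L, y ∈ Nr j H η ∧ y ∈ C := fun y hy => hL y (List.mem_cons_of_mem _ hy)
    have hm := d.mem_list L fun y hy => (hL' y hy).1.1
    rw [List.prod_cons, hV a ha.1 _ hm, hV' a ha.1 _ hm, h a ha, ih hL']

end Dat

end Vale.Agent.P011.H518.Real
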