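import Vale.Agent.P011.H518.Real.Mat
import Vale.Agent.P011.H436.OddN.Moves

/-!
# The extension, with its values on the elements which commute with their images
-/

open Filter Topology

set_option linter.unusedSectionVars false

noncomputable section

namespace Vale.Agent.P011.H518.Real

/-! ### The double commutant -/

section comm

variable {D : Type*} [DivisionRing D] [StarRing D]

/-- The double commutant of `g` and `star g`. -/
def CC (g : D) : Set D := {x | ∀ y : D, Commute y g → Commute y (star g) → Commute x y}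

theorem CC_self (g : D) : g ∈ CC g := fun _ h _ => h.symm

theorem CC_comm {g x y : D} (hg : Commute g (star g)) (hx : x ∈ CC g) (hy : y ∈ CC g) :
    Commute x y := by
  have h1 : Commute y g := hy g (Commute.refl g) hg
  have h2 : Commute y (star g) := hy (star g) hg.symm (Commute.refl _)
  exact hx y h1 h2

theorem commute_star {x y : D} (h : Commute x y) : Commute (star x) (star y) := by
  have h1 := congrArg star h.eq
  rw [star_mul, star_mul] at h1
  exact h1.symm

theorem CC_star {g x : D} (hx : x ∈ CC g) : star x ∈ CC g := by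
  intro y h1 h2
  have h3 : Commute (star y) g := by
    have h := commute_star h2
    rwa [star_star] at h
  have h4 := commute_star (hx (star y) h3 (commute_star h1))
  rwa [star_star] at h4

theorem CC_cl {K : Type*} [Field K] [Algebra K D] (O : Subring K) (g : D) :
    Cl (Con.ZZ D O) (CC g) := by
  refine ⟨fun y _ _ => Commute.one_left y, fun hx hy z h1 h2 => (hx z h1 h2).mul_left (hy z h1 h2),
    fun hx hy z h1 h2 => (hx z h1 h2).add_left (hy z h1 h2),
    fun hx z h1 h2 => (hx z h1 h2).neg_left, fun hx z h1 h2 => (hx z h1 h2).inv_left₀, ?_⟩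
  rintro z ⟨a, -, rfl⟩ y _ _
  exact Algebra.commutes a y

/-- The map `x ↦ star x * x⁻¹`. -/
theorem quot_mul {x y : D} (h1 : Commute x y) (h3 : Commute x (star y)) :
    star (x * y) * (x * y)⁻¹ = (star x * x⁻¹) * (star y * y⁻¹) := by
  rw [star_mul, _root_.mul_inv_rev]
  have h4 : Commute (star y) (star x) := (commute_star h1).symm
  calc star y * star x * (y⁻¹ * x⁻¹) = star x * star y * (y⁻¹ * x⁻¹) := by rw [h4.eq]
    _ = star x * star y * (x⁻¹ * y⁻¹) := by
        rw [← _root_.mul_inv_rev, ← _root_.mul_inv_rev, h1.eq]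
    _ = star x * (star y * x⁻¹) * y⁻¹ := by simp only [mul_assoc]
    _ = star x * (x⁻¹ * star y) * y⁻¹ := by rw [(h3.inv_left₀).eq]
    _ = _ := by simp only [mul_assoc]

end comm

section main

attribute [local instance] Matrix.linftyOpNormedRing Matrix.linftyOpNormedAlgebra

variable {K D E T : Type*} [Field K] [DivisionRing D] [StarRing D] [Algebra K D] [CommGroup E]
  [Fintype T] {n : ℕ} [NeZero n] {J : T → (D →+* Matrix (Fin n) (Fin n) ℂ)}
  {τ : T → (K →+* ℂ)} {O : Subring K} {H F : Set D}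

/-- Words in a commutative subset. -/
theorem Con.exists_word (c : Con τ J O H F) {η : ℝ} (hη : 0 < η) {h : D} (hh : h ∈ H) {C : Set D}
    (hC : Cl (Con.ZZ D O) C) (hhC : h ∈ C) :
    ∃ L : List D, (∀ x ∈ L, x ∈ H ∧ Pn J η x ∧ x ∈ C) ∧ L.prod = h := by
  cases isEmpty_or_nonempty T with
  | inl hT =>
    refine ⟨[h], fun x hx => ?_, by simp⟩
    rw [List.mem_singleton.mp hx]
    exact ⟨hh, fun t => hT.elim t, hhC⟩
  | inr hT =>
    have d := c.dat (E := Unit) (P := fun _ => 1) (χ := fun _ => 1) (δ := 1) one_pos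
      (fun _ _ _ _ _ _ => (mul_one 1).symm)
      (fun _ _ => ⟨1, one_pos, 1, one_pos, fun _ _ _ _ _ => rfl⟩)
      (fun _ _ _ _ _ _ => (mul_one 1).symm) (fun _ _ _ _ => rfl)
    obtain ⟨L, hL, hp⟩ := d.exists_word hη hh hC hhC
    exact ⟨L, fun x hx => ⟨(hL x hx).1.1, pn_of_nr (hL x hx).1, (hL x hx).2⟩, hp⟩

/-- **The value of a homomorphism on an element which commutes with its image.** -/
theorem Con.val_star (con : Con τ J O H F) {W : Set D} {c V : D → E} (hc : H436.OddN.Chr W c)
    (hHW : ∀ x ∈ H, Commute x (star x) → star x * x⁻¹ ∈ W)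
    (hV : ∀ x ∈ H, ∀ y ∈ H, V (x * y) = V x * V y) {η : ℝ} (hη : 0 < η)
    (h : ∀ x ∈ H, Pn J η x → Commute x (star x) → V x = c (star x * x⁻¹)) :
    ∀ g ∈ H, Commute g (star g) → V g = c (star g * g⁻¹) := by
  intro g hg hgs
  obtain ⟨L, hL, hp⟩ := con.exists_word hη hg (CC_cl O g) (CC_self g)
  have key : ∀ L : List D, (∀ x ∈ L, x ∈ H ∧ Pn J η x ∧ x ∈ CC g) →
      L.prod ∈ H ∧ L.prod ∈ CC g ∧ V L.prod = c (star L.prod * L.prod⁻¹) := by
    intro L
    induction L with
    | nil =>
      intro _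
      have h1 := h 1 con.grp.one (fun t a b => by
        rw [map_one, sub_self, Matrix.zero_apply, norm_zero]
        exact hη) (Commute.one_left _)
      exact ⟨con.grp.one, (CC_cl O g).one, h1⟩
    | cons x L ih =>
      intro hL
      obtain ⟨h1, h2, h3⟩ := ih fun y hy => hL y (List.mem_cons_of_mem _ hy)
      obtain ⟨h4, h5, h6⟩ := hL x List.mem_cons_self
      rw [List.prod_cons]
      refine ⟨con.grp.mul h4 h1, (CC_cl O g).mul h6 h2, ?_⟩
      have hxs : Commute x (star x) := CC_comm hgs h6 (CC_star h6)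
      have hLs : Commute L.prod (star L.prod) := CC_comm hgs h2 (CC_star h2)
      rw [hV x h4 _ h1, h x h4 h5 hxs, h3, quot_mul (CC_comm hgs h6 h2)
        (CC_comm hgs h6 (CC_star h2)),
        hc.map _ (hHW x h4 hxs) _ (hHW _ h1 hLs)]
  obtain ⟨-, -, h3⟩ := key L hL
  rwa [hp] at h3

/-- **The main theorem.**  A function which is multiplicative close to one, with the values
`c (star x * x⁻¹)` on the elements commuting with their images, extends. -/
theorem Con.exists_star (con : Con τ J O H F) {Hp : Set D} (w : Two τ H Hp) {W : Set D}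
    {c P : D → E} (hc : H436.OddN.Chr W c)
    (hHW : ∀ x ∈ H, Commute x (star x) → star x * x⁻¹ ∈ W)
    (Fc : ∀ x ∈ F, ∀ y ∈ F, Commute x y) (Fs : ∀ x ∈ F, star x ∈ F) {δ : ℝ} (hδ : 0 < δ)
    (add : ∀ x ∈ Hp, ∀ y ∈ Hp, Pn J δ x → Pn J δ y → P (x * y) = P x * P y)
    (comm : ∀ x ∈ H, Pn J δ x → Commute x (star x) → P x = c (star x * x⁻¹)) :
    ∃ (V : D → E) (δ₁ : ℝ), 0 < δ₁ ∧ (∀ x ∈ H, ∀ y ∈ H, V (x * y) = V x * V y) ∧
      (∀ x ∈ H, Pn J δ₁ x → V x = P x) ∧
      ∀ g ∈ H, Commute g (star g) → V g = c (star g * g⁻¹) := by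
  obtain ⟨V, δ₁, h1, h2, h3⟩ := con.exists_ext_all w (χ := fun x => c (star x * x⁻¹)) hδ add
    (fun x hx y hy hxH hyH => by
      rw [quot_mul (Fc x hx y hy) (Fc x hx _ (Fs y hy)),
        hc.map _ (hHW x hxH (Fc x hx _ (Fs x hx))) _ (hHW y hyH (Fc y hy _ (Fs y hy)))])
    (fun x hx hxH hn => comm x hxH hn (Fc x hx _ (Fs x hx)))
  refine ⟨V, δ₁, h1, h2, h3, con.val_star hc hHW h2 (lt_min h1 hδ) fun x hx hn hxs => ?_⟩
  rw [h3 x hx fun t a b => (hn t a b).trans_le (min_le_left _ _)]
  exact comm x hx (fun t a b => (hn t a b).trans_le (min_le_right _ _)) hxs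

end main

end Vale.Agent.P011.H518.Real
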