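import Vale.Agent.P011.T2.MaxSub
import Vale.Agent.P011.Even.RealLoc

/-!
# A symmetric element which generates a maximal subfield
-/

open Module Polynomial
open Vale.Agent.P011.Even

set_option linter.unusedSectionVars false

namespace Vale.Agent.P011.H518.Real

variable {k K D : Type} [Field k] [NumberField k] [Field K] [StarRing K]
  [DivisionRing D] [StarRing D] [Algebra k K] [Algebra k D] [Algebra K D] [IsScalarTower k K D]
  {d : kˣ} {s : K} {n : ℕ}

/-- The dimension of a maximal commutative subring generated by one element. -/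
theorem natDegree_of_max {K D : Type} [Field K] [DivisionRing D] [Algebra K D]
    [FiniteDimensional K D] [Algebra.IsCentral K D] {n : ℕ} (hdeg : finrank K D = n ^ 2) {θ : D}
    (h : ∀ x, x * θ = θ * x → x ∈ Algebra.adjoin K {θ}) : (minpoly K θ).natDegree = n := by
  have hint : IsIntegral K θ := Algebra.IsIntegral.isIntegral θ
  have h1 := T2.finrank_centralizer (K := K) (Algebra.adjoin K {θ})
  have h2 : Subalgebra.centralizer K ((Algebra.adjoin K {θ} : Subalgebra K D) : Set D) =
      Algebra.adjoin K {θ} := by
    apply le_antisymm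
    · intro x hx
      rw [Subalgebra.mem_centralizer_iff] at hx
      exact h x (hx θ (Algebra.subset_adjoin (Set.mem_singleton θ))).symm
    · intro x hx
      rw [Subalgebra.mem_centralizer_iff]
      intro y hy
      have hx' := hx
      have hy' : y ∈ Algebra.adjoin K {θ} := hy
      rw [Algebra.adjoin_singleton_eq_range_aeval] at hx' hy'
      obtain ⟨p, rfl⟩ := hx'
      obtain ⟨q, rfl⟩ := hy'
      change aeval θ q * aeval θ p = aeval θ p * aeval θ q
      rw [← map_mul, ← map_mul, mul_comm]
  rw [h2, hdeg, ← sq] at h1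
  have h3 := Nat.pow_left_injective two_ne_zero h1
  have e : Subalgebra.toSubmodule (Algebra.adjoin K {θ}) =
      Submodule.span K (Set.range fun i : Fin (minpoly K θ).natDegree => θ ^ (i : ℕ)) := by
    apply le_antisymm
    · intro x hx
      have hx' : x ∈ Algebra.adjoin K {θ} := hx
      rw [Algebra.adjoin_singleton_eq_range_aeval] at hx'
      obtain ⟨q, rfl⟩ := hx'
      exact hint.mem_span_pow ⟨q, rfl⟩
    · rw [Submodule.span_le]
      rintro _ ⟨i, rfl⟩
      exact (Algebra.adjoin K {θ}).pow_mem (Algebra.subset_adjoin (Set.mem_singleton θ)) _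
  have h4 : finrank K (Subalgebra.toSubmodule (Algebra.adjoin K {θ})) =
      (minpoly K θ).natDegree := by
    rw [e, finrank_span_eq_card (linearIndependent_pow θ), Fintype.card_fin]
  exact h4.symm.trans h3

/-- **Symmetric elements of maximal degree.** -/
theorem exists_sym (hS : Setting k K D d s) (hdeg : finrank K D = n ^ 2) :
    ∃ s₁ : D, star s₁ = s₁ ∧ (minpoly K s₁).natDegree = n := by
  have := numberField_of_setting hS
  have := hS.fin
  have := hS.cen
  have : StarModule K D := ⟨hS.star_smul⟩
  have hs0 : s ≠ 0 := by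
    rintro rfl
    have h := hS.sq
    rw [zero_pow two_ne_zero] at h
    exact (_root_.map_ne_zero (algebraMap k K)).mpr d.ne_zero h.symm
  obtain ⟨θ, h1, -, h2⟩ := T2.exists_max (D := D) hS.star_s hs0
  exact ⟨θ, h1, natDegree_of_max hdeg h2⟩

/-- The subring generated by a symmetric element. -/
theorem adjoin_comm {K D : Type} [Field K] [DivisionRing D] [Algebra K D] {θ : D} :
    ∀ x ∈ (Algebra.adjoin K {θ} : Set D), ∀ y ∈ (Algebra.adjoin K {θ} : Set D),
      Commute x y := by
  intro x hx y hy
  have hx' : x ∈ Algebra.adjoin K {θ} := hx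
  have hy' : y ∈ Algebra.adjoin K {θ} := hy
  rw [Algebra.adjoin_singleton_eq_range_aeval] at hx' hy'
  obtain ⟨p, rfl⟩ := hx'
  obtain ⟨q, rfl⟩ := hy'
  change aeval θ p * aeval θ q = aeval θ q * aeval θ p
  rw [← map_mul, ← map_mul, mul_comm]

theorem adjoin_star {K D : Type} [Field K] [StarRing K] [DivisionRing D] [StarRing D]
    [Algebra K D] (hst : ∀ (c : K) (y : D), star (c • y) = star c • star y) {θ : D}
    (hθ : star θ = θ) : ∀ x ∈ (Algebra.adjoin K {θ} : Set D),
      star x ∈ (Algebra.adjoin K {θ} : Set D) := by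
  intro x hx
  have hx' : x ∈ Algebra.adjoin K {θ} := hx
  change star x ∈ Algebra.adjoin K {θ}
  induction hx' using Algebra.adjoin_induction with
  | mem x hx1 =>
    rw [Set.mem_singleton_iff.mp hx1, hθ]
    exact Algebra.subset_adjoin (Set.mem_singleton θ)
  | algebraMap r =>
    have h : star (algebraMap K D r) = algebraMap K D (star r) := by
      rw [Algebra.algebraMap_eq_smul_one, hst, star_one, Algebra.algebraMap_eq_smul_one]
    rw [h]
    exact Subalgebra.algebraMap_mem _ _
  | add x y hx' hy' h1 h2 => rw [star_add]; exact add_mem (h1 hx') (h2 hy')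
  | mul x y hx' hy' h1 h2 => rw [star_mul]; exact mul_mem (h2 hy') (h1 hx')

end Vale.Agent.P011.H518.Real
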