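import Vale.Agent.P011.H518.Real.Core

/-!
# Words: subdivision, closed words, the value of a word
-/

open Filter Topology

set_option linter.unusedSectionVars false

namespace Vale.Agent.P011.H518.Real

/-- Uniform continuity of the quotients along a path. -/
theorem path_unif {R : Type*} [NormedRing R] [CompleteSpace R] {p : ℝ → R}
    (hc : ContinuousOn p (Set.Icc 0 1)) (hu : ∀ t ∈ Set.Icc (0 : ℝ) 1, IsUnit (p t)) {η : ℝ}
    (hη : 0 < η) : ∃ ρ : ℝ, 0 < ρ ∧ ∀ t ∈ Set.Icc (0 : ℝ) 1, ∀ t' ∈ Set.Icc (0 : ℝ) 1,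
      |t - t'| < ρ → ‖Ring.inverse (p t) * p t' - 1‖ < η := by
  have hq : ContinuousOn (fun t => Ring.inverse (p t)) (Set.Icc 0 1) := by
    intro t ht
    obtain ⟨u, hu'⟩ := hu t ht
    have h1 := NormedRing.inverse_continuousAt u
    rw [hu'] at h1
    exact h1.comp_continuousWithinAt (hc t ht)
  have hF : ContinuousOn (fun x : ℝ × ℝ => ‖Ring.inverse (p x.1) * p x.2 - 1‖)
      (Set.Icc 0 1 ×ˢ Set.Icc 0 1) := by
    refine ((ContinuousOn.mul ?_ ?_).sub continuousOn_const).norm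
    · exact hq.comp continuousOn_fst fun x hx => hx.1
    · exact hc.comp continuousOn_snd fun x hx => hx.2
  have hU := (isCompact_Icc.prod isCompact_Icc).uniformContinuousOn_of_continuous hF
  rw [Metric.uniformContinuousOn_iff] at hU
  obtain ⟨ρ, hρ, h⟩ := hU η hη
  refine ⟨ρ, hρ, fun t ht t' ht' htt => ?_⟩
  have h1 := h (t, t) ⟨ht, ht⟩ (t, t') ⟨ht, ht'⟩ (by
    rw [Prod.dist_eq, dist_self, Real.dist_eq]
    exact max_lt hρ htt)
  rw [Ring.inverse_mul_cancel _ (hu t ht), sub_self, norm_zero, Real.dist_eq, zero_sub, abs_neg,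
    abs_of_nonneg (norm_nonneg _)] at h1
  exact h1

variable {D R E : Type*} [DivisionRing D] [NormedRing R] [CompleteSpace R] [Nontrivial R]
  [NormedAlgebra ℝ R] [CommGroup E]

/-- The image of a rational number. -/
theorem j_rat (j : D →+* R) {M : ℕ} (hM : (M : D) ≠ 0) (hM0 : 0 < M) (i : ℕ) :
    j ((i : D) * (M : D)⁻¹) = algebraMap ℝ R ((i : ℝ) / M) := by
  have h1 : (j (M : D)⁻¹) * (M : R) = 1 := by
    rw [← map_natCast j, ← map_mul, inv_mul_cancel₀ hM, map_one]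
  have h2 : (M : R) * algebraMap ℝ R ((M : ℝ)⁻¹) = 1 := by
    rw [← map_natCast (algebraMap ℝ R), ← map_mul, mul_inv_cancel₀ (by positivity), map_one]
  have h3 : j (M : D)⁻¹ = algebraMap ℝ R ((M : ℝ)⁻¹) := by
    calc j (M : D)⁻¹ = j (M : D)⁻¹ * ((M : R) * algebraMap ℝ R ((M : ℝ)⁻¹)) := by rw [h2, mul_one]
      _ = _ := by rw [← mul_assoc, h1, one_mul]
  rw [map_mul, map_natCast, h3, div_eq_mul_inv, map_mul, map_natCast]

namespace Dat

variable {j : D →+* R} {H F Z : Set D} {P χ : D → E} {δ : ℝ} (d : Dat j H F Z P χ δ)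

theorem j_pt (z h : D) : j (pt z h) = 1 + j z * (j h - 1) := by
  rw [pt, map_add, map_one, map_mul, map_sub, map_one]

theorem quot_prod {q : ℕ → D} (hq : ∀ i, q i ≠ 0) (M : ℕ) :
    ((List.range M).map fun i => (q i)⁻¹ * q (i + 1)).prod = (q 0)⁻¹ * q M := by
  induction M with
  | zero => simp [hq 0]
  | succ M ih =>
    rw [List.range_succ, List.map_append, List.prod_append, ih]
    simp only [List.map_cons, List.map_nil, List.prod_cons, List.prod_nil, mul_one]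
    calc (q 0)⁻¹ * q M * ((q M)⁻¹ * q (M + 1)) = (q 0)⁻¹ * (q M * (q M)⁻¹) * q (M + 1) := by
          simp only [mul_assoc]
      _ = _ := by rw [mul_inv_cancel₀ (hq M), mul_one]

include d

/-- The points of a path. -/
theorem pt_H {z h : D} (hz : z ∈ Z) (hh : h ∈ H) (hu : IsUnit (1 + j z * (j h - 1))) :
    pt z h ∈ H := by
  refine d.Zmem z hz h hh fun h0 => ?_
  rw [← j_pt, pt, h0, map_zero] at hu
  exact not_isUnit_zero hu

/-- The segment of an element close to one. -/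
theorem seg_pt (hδ : δ ≤ 1) {x : D} (hx : x ∈ Nr j H δ) {M : ℕ} (hM0 : 0 < M) (hM : (M : D) ≠ 0)
    (hz : ∀ i ≤ M, ((i : D) * (M : D)⁻¹) ∈ Z) {i : ℕ} (hi : i ≤ M) :
    pt ((i : D) * (M : D)⁻¹) x ∈ Nr j H δ ∧
      j (pt ((i : D) * (M : D)⁻¹) x) = 1 + ((i : ℝ) / M) • (j x - 1) := by
  have hMr : (0 : ℝ) < M := by exact_mod_cast hM0
  have h0 : (0 : ℝ) ≤ (i : ℝ) / M := by positivity
  have h1 : (i : ℝ) / M ≤ 1 := by
    rw [div_le_one hMr]
    exact_mod_cast hi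
  have e : j (pt ((i : D) * (M : D)⁻¹) x) = 1 + ((i : ℝ) / M) • (j x - 1) := by
    rw [j_pt, j_rat j hM hM0, Algebra.smul_def]
  have e2 : ‖j (pt ((i : D) * (M : D)⁻¹) x) - 1‖ < δ := by
    rw [e, add_sub_cancel_left]
    calc ‖((i : ℝ) / M) • (j x - 1)‖ ≤ ‖((i : ℝ) / M)‖ * ‖j x - 1‖ := norm_smul_le _ _
      _ ≤ 1 * ‖j x - 1‖ := by
          refine mul_le_mul_of_nonneg_right ?_ (norm_nonneg _)
          rwa [Real.norm_of_nonneg h0]
      _ < δ := by rw [one_mul]; exact hx.2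
  refine ⟨⟨d.pt_H (hz i hi) hx.1 ?_, e2⟩, e⟩
  rw [← j_pt]
  have h3 : ‖(1 : R) - j (pt ((i : D) * (M : D)⁻¹) x)‖ < 1 := by
    rw [norm_sub_rev]
    exact e2.trans_le hδ
  have h4 := isUnit_one_sub_of_norm_lt_one h3
  rwa [sub_sub_cancel] at h4

/-- **Subdivision.** -/
theorem refine_word (hδ : δ ≤ 1) {η : ℝ} (hη : 0 < η) {x : D} (hx : x ∈ Nr j H δ) {C : Set D}
    (hC : Cl Z C) (hxC : x ∈ C) : ∃ L : List D, (∀ y ∈ L, y ∈ Nr j H η ∧ y ∈ Nr j H δ ∧ y ∈ C) ∧
      L.prod = x ∧ (L.map P).prod = P x := by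
  set p : ℝ → R := fun t => 1 + t • (j x - 1) with hp
  have hc : ContinuousOn p (Set.Icc 0 1) := by
    refine Continuous.continuousOn ?_
    exact continuous_const.add (continuous_id.smul continuous_const)
  have hu : ∀ t ∈ Set.Icc (0 : ℝ) 1, IsUnit (p t) := by
    intro t ht
    have h3 : ‖(1 : R) - p t‖ < 1 := by
      have : (1 : R) - p t = -(t • (j x - 1)) := by rw [hp]; simp
      rw [this, norm_neg]
      calc ‖t • (j x - 1)‖ ≤ ‖t‖ * ‖j x - 1‖ := norm_smul_le _ _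
        _ ≤ 1 * ‖j x - 1‖ := by
            refine mul_le_mul_of_nonneg_right ?_ (norm_nonneg _)
            rw [Real.norm_of_nonneg ht.1]
            exact ht.2
        _ < 1 := by rw [one_mul]; exact hx.2.trans_le hδ
    have h4 := isUnit_one_sub_of_norm_lt_one h3
    rwa [sub_sub_cancel] at h4
  obtain ⟨ρ, hρ, hq⟩ := path_unif hc hu (lt_min hη d.pos)
  obtain ⟨N, hN⟩ := exists_nat_gt (1 / ρ)
  obtain ⟨M, hNM, hM0, hM, hz⟩ := d.seg N
  have hMr : (0 : ℝ) < M := by exact_mod_cast hM0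
  set q : ℕ → D := fun i => pt ((i : D) * (M : D)⁻¹) x with hqd
  have hpt : ∀ i ≤ M, q i ∈ Nr j H δ ∧ j (q i) = p ((i : ℝ) / M) := fun i hi =>
    d.seg_pt hδ hx hM0 hM hz hi
  have hqC : ∀ i ≤ M, q i ∈ C := fun i hi => pt_mem hC (hz i hi) hxC
  have hq0 : q 0 = 1 := by rw [hqd]; simp [pt_zero]
  have hqM : q M = x := by rw [hqd]; simp [mul_inv_cancel₀ hM, pt_one]
  have hne : ∀ i ≤ M, q i ≠ 0 := fun i hi => d.grp.ne (hpt i hi).1.1
  have hstep : ∀ i < M, (q i)⁻¹ * q (i + 1) ∈ Nr j H η ∧ (q i)⁻¹ * q (i + 1) ∈ Nr j H δ ∧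
      (q i)⁻¹ * q (i + 1) ∈ C := by
    intro i hi
    have h1 : |(i : ℝ) / M - ((i + 1 : ℕ) : ℝ) / M| < ρ := by
      have h2 : (i : ℝ) / M - ((i + 1 : ℕ) : ℝ) / M = -(1 / M) := by
        push_cast
        field_simp
        ring
      rw [h2, abs_neg, abs_of_pos (by positivity), div_lt_iff₀ hMr]
      have h3 : (N : ℝ) ≤ M := by exact_mod_cast hNM
      rw [div_lt_iff₀ hρ] at hN
      nlinarith
    have h2 := hq ((i : ℝ) / M) ⟨by positivity, by
      rw [div_le_one hMr]; exact_mod_cast hi.le⟩ (((i + 1 : ℕ) : ℝ) / M) ⟨by positivity, by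
      rw [div_le_one hMr]; exact_mod_cast hi⟩ h1
    rw [← (hpt i hi.le).2, ← (hpt (i + 1) hi).2, ← j_inv j (hne i hi.le), ← map_mul] at h2
    have h3 : (q i)⁻¹ * q (i + 1) ∈ H := d.grp.mul (d.grp.inv (hpt i hi.le).1.1) (hpt (i + 1) hi).1.1
    exact ⟨⟨h3, h2.trans_le (min_le_left _ _)⟩, ⟨h3, h2.trans_le (min_le_right _ _)⟩,
      hC.mul (hC.inv (hqC i hi.le)) (hqC (i + 1) hi)⟩
  have hprod : ∀ m ≤ M, ((List.range m).map fun i => (q i)⁻¹ * q (i + 1)).prod = q m ∧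
      (((List.range m).map fun i => (q i)⁻¹ * q (i + 1)).map P).prod = P (q m) := by
    intro m
    induction m with
    | zero => intro _; simp [hq0, d.P_one]
    | succ m ih =>
      intro hm
      obtain ⟨h1, h2⟩ := ih (by omega)
      rw [List.range_succ, List.map_append, List.prod_append, List.map_append, List.prod_append,
        h1, h2]
      simp only [List.map_cons, List.map_nil, List.prod_cons, List.prod_nil, mul_one]
      rw [mul_inv_cancel_left₀ (hne m (by omega)), ← d.add _ (hpt m (by omega)).1 _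
        (hstep m (by omega)).2.1, mul_inv_cancel_left₀ (hne m (by omega))]
      exact ⟨rfl, rfl⟩
  obtain ⟨h1, h2⟩ := hprod M le_rfl
  refine ⟨(List.range M).map fun i => (q i)⁻¹ * q (i + 1), fun y hy => ?_, h1.trans hqM,
    h2.trans (by rw [hqM])⟩
  obtain ⟨i, hi, rfl⟩ := List.mem_map.mp hy
  exact hstep i (List.mem_range.mp hi)

/-- Subdivision of a word. -/
theorem refine_list (hδ : δ ≤ 1) {η : ℝ} (hη : 0 < η) {C : Set D} (hC : Cl Z C) (L : List D)
    (hL : ∀ x ∈ L, x ∈ Nr j H δ ∧ x ∈ C) :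
    ∃ L' : List D, (∀ y ∈ L', y ∈ Nr j H η ∧ y ∈ Nr j H δ ∧ y ∈ C) ∧ L'.prod = L.prod ∧
      (L'.map P).prod = (L.map P).prod := by
  induction L with
  | nil => exact ⟨[], by simp, rfl, rfl⟩
  | cons x L ih =>
    obtain ⟨L₁, h1, h2, h3⟩ := ih fun y hy => hL y (List.mem_cons_of_mem _ hy)
    obtain ⟨h4, h5⟩ := hL x List.mem_cons_self
    obtain ⟨L₂, h6, h7, h8⟩ := d.refine_word hδ hη h4 hC h5
    refine ⟨L₂ ++ L₁, fun y hy => ?_, ?_, ?_⟩
    · rcases List.mem_append.mp hy with hy | hy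
      · exact h6 y hy
      · exact h1 y hy
    · rw [List.prod_append, List.prod_cons, h7, h2]
    · rw [List.map_append, List.prod_append, List.map_cons, List.prod_cons, h8, h3]

/-- **Closed words.** -/
theorem closed (hδ : δ ≤ 1) {G : R} (hG : IsUnit G) {g : ℕ → D} (hg : ∀ k, g k ∈ H)
    (tg : Tendsto (fun k => j (g k)) atTop (𝓝 G)) {C : Set D} (hC : Cl Z C)
    (hf : ∀ x ∈ H, x ∈ C → ∃ f : ℕ → D, (∀ k, f k ∈ F) ∧ (∀ k, f k ∈ H) ∧
      Tendsto (fun k => j (f k)) atTop (𝓝 (G * j x * Ring.inverse G))) (L : List D)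
    (hL : ∀ x ∈ L, x ∈ Nr j H δ ∧ x ∈ C) (hp : L.prod = 1) : (L.map P).prod = 1 := by
  obtain ⟨c, hc⟩ : ∃ c : ℝ, c = ‖G‖ * ‖Ring.inverse G‖ + 1 := ⟨_, rfl⟩
  have hc0 : 0 < c := by rw [hc]; positivity
  obtain ⟨ρ, hρ, δ', hδ', hcj⟩ := d.conj G hG
  obtain ⟨L', h1, h2, h3⟩ := d.refine_list hδ (lt_min (div_pos d.pos hc0) hδ') hC L hL
  rw [← h3]
  set x : ℕ → D := fun i => L'.getD i 1 with hx
  have hLx : (List.range L'.length).map x = L' := by
    refine List.ext_getElem (by simp) fun i hi hi' => ?_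
    simp [hx, List.getD_eq_getElem?_getD, hi']
  have hx1 : ∀ i, (x i ∈ Nr j H (min (δ / c) δ') ∧ x i ∈ Nr j H δ ∧ x i ∈ C) := by
    intro i
    by_cases hi : i < L'.length
    · have : x i = L'[i] := by simp [hx, List.getD_eq_getElem?_getD, hi]
      rw [this]
      exact h1 _ (List.getElem_mem hi)
    · have : x i = 1 := by simp [hx, List.getD_eq_getElem?_getD, not_lt.mp hi]
      rw [this]
      refine ⟨⟨d.grp.one, ?_⟩, d.one_near, hC.one⟩
      rw [map_one, sub_self, norm_zero]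
      exact lt_min (div_pos d.pos hc0) hδ'
  have h4 := d.closed_small hG hg tg hf hρ hcj L'.length x (fun i => ⟨(hx1 i).2.1, (hx1 i).2.2⟩)
    (fun i => ⟨(hx1 i).1.1, (hx1 i).1.2.trans_le (min_le_right _ _)⟩)
    (fun i => ?_) (by rw [hLx, h2, hp])
  · rw [← h4]
    congr 1
    conv_lhs => rw [← hLx]
    rw [List.map_map]
    rfl
  · have h5 : G * j (x i) * Ring.inverse G - 1 = G * (j (x i) - 1) * Ring.inverse G := by
      rw [mul_sub, sub_mul, mul_one, Ring.mul_inverse_cancel _ hG]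
    rw [h5]
    calc ‖G * (j (x i) - 1) * Ring.inverse G‖ ≤ ‖G * (j (x i) - 1)‖ * ‖Ring.inverse G‖ :=
          norm_mul_le _ _
      _ ≤ ‖G‖ * ‖j (x i) - 1‖ * ‖Ring.inverse G‖ :=
          mul_le_mul_of_nonneg_right (norm_mul_le _ _) (norm_nonneg _)
      _ = ‖G‖ * ‖Ring.inverse G‖ * ‖j (x i) - 1‖ := by ring
      _ ≤ c * ‖j (x i) - 1‖ := mul_le_mul_of_nonneg_right (by rw [hc]; linarith) (norm_nonneg _)
      _ < c * (δ / c) := mul_lt_mul_of_pos_left ((hx1 i).1.2.trans_le (min_le_left _ _)) hc0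
      _ = δ := by field_simp

end Dat

end Vale.Agent.P011.H518.Real
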